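import Vale.Agent.P216.N929.Sys
import Vale.Agent.P216.H787.Omega
import Vale.Agent.P216.H250.Pi0P
import Vale.Agent.P216.H347.SCS

/-!
# OMEGA (block B38) for manifolds homeomorphic to a sphere, from `Cross`
-/

open Finsupp Set BoundedContinuousFunction

namespace Vale.Agent.P216.N929

open Vale.Agent.P216.Sl Vale.Agent.P216.PS

/-- Three distinct points, one of them given. -/
theorem exists_points {M : Type} [MetricSpace M] {n : ℕ} (hn : 2 ≤ n)
    (h : M ≃ₜ Metric.sphere (0 : EuclideanSpace ℝ (Fin (n + 1))) 1) (x₀ : M) :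
    ∃ a b : M, x₀ ≠ a ∧ x₀ ≠ b ∧ a ≠ b := by
  have h1 : IsPreconnected (Metric.sphere (0 : EuclideanSpace ℝ (Fin (n + 1))) 1) :=
    isPreconnected_sphere (by
      rw [← Module.finrank_eq_rank, finrank_euclideanSpace, Fintype.card_fin]
      exact_mod_cast (by omega : 1 < n + 1)) _ _
  have h2 : PreconnectedSpace (Metric.sphere (0 : EuclideanSpace ℝ (Fin (n + 1))) 1) :=
    isPreconnected_iff_preconnectedSpace.1 h1
  have h3 : PreconnectedSpace M :=
    h.symm.surjective.denseRange.preconnectedSpace h.symm.continuous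
  have h4 : Nontrivial M := by
    refine ⟨x₀, h.symm (-(h x₀)), fun he => ?_⟩
    have h5 : h x₀ = -(h x₀) := by
      have := congrArg h he
      rwa [h.apply_symm_apply] at this
    have h6 : ((h x₀ : Metric.sphere (0 : EuclideanSpace ℝ (Fin (n + 1))) 1) :
        EuclideanSpace ℝ (Fin (n + 1))) = -(h x₀ : EuclideanSpace ℝ (Fin (n + 1))) :=
      congrArg Subtype.val h5
    have h7 : ‖((h x₀ : Metric.sphere (0 : EuclideanSpace ℝ (Fin (n + 1))) 1) :
        EuclideanSpace ℝ (Fin (n + 1)))‖ = 1 := by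
      have := (h x₀).2
      rwa [mem_sphere_zero_iff_norm] at this
    have h8 : ((h x₀ : Metric.sphere (0 : EuclideanSpace ℝ (Fin (n + 1))) 1) :
        EuclideanSpace ℝ (Fin (n + 1))) = 0 := by
      have h9 : (2 : ℝ) • ((h x₀ : Metric.sphere (0 : EuclideanSpace ℝ (Fin (n + 1))) 1) :
          EuclideanSpace ℝ (Fin (n + 1))) = 0 := by
        rw [two_smul]
        nth_rw 1 [h6]
        exact neg_add_cancel _
      exact (smul_eq_zero.1 h9).resolve_left two_ne_zero
    rw [h8, norm_zero] at h7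
    exact zero_ne_one h7
  have h5 : (univ : Set M).Infinite :=
    isPreconnected_univ.infinite_of_nontrivial Set.nontrivial_univ
  obtain ⟨a, -, ha⟩ := h5.exists_notMem_finite (Set.finite_singleton x₀)
  obtain ⟨b, -, hb⟩ := h5.exists_notMem_finite ((Set.finite_singleton x₀).insert a)
  simp only [mem_singleton_iff, mem_insert_iff, not_or] at ha hb
  exact ⟨a, b, fun h => ha h.symm, fun h => hb.2 h.symm, fun h => hb.1 h.symm⟩

/-- **OMEGA**, from the statement `Cross`. -/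
theorem omega_of (hX : Cross) (M : Type) [MetricSpace M] [CompactSpace M] [SimplyConnectedSpace M]
    {n : ℕ} (hn : 2 ≤ n) {ρ : ℝ} (hρ : 0 < ρ) (hU : LS.UniqSeg M ρ)
    (h : M ≃ₜ Metric.sphere (0 : EuclideanSpace ℝ (Fin (n + 1))) 1) (x₀ : M) :
    ∃ B : ℝ, 0 < B ∧ ∀ (k : Type) [Field k], Nonempty (B64.OmegaOut M (n - 1) x₀ B k) := by
  obtain ⟨a, b, h1, h2, h3⟩ := exists_points hn h x₀
  obtain ⟨G, rfl⟩ := exists_geo hU hρ hn h1 h2 h3
  obtain ⟨e₀, la, he₀, hla, H⟩ := Tau.exists_tau hn h hρ hU G.h1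
  obtain ⟨D, hD, hne, hj⟩ := H250.pi0 hρ hU
  set s : ℝ := max (la (G.y true) (G.y false)) (la (G.y false) (G.y true)) with hs
  have hs0 : 0 ≤ s := (hla _ _).le.trans (le_max_left _ _)
  have hsb : ∀ c : Bool, la (G.y c) (G.y (!c)) ≤ s := by
    rintro (_ | _)
    · exact le_max_right _ _
    · exact le_max_left _ _
  refine ⟨OmSys.BB G.r (D + s) D, ?_, fun k _ => ?_⟩
  · have := G.hr
    unfold OmSys.BB
    linarith
  · obtain ⟨τ, hτe, hev⟩ := H k
    have S : OmSys k M (n - 1) G.r (D + s) G.x₀ τ.f :=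
      omSys G τ hX (N := n - 1) (by omega) (fun _ => D) (fun _ => s) (fun _ => hD) (fun _ => hs0)
        (fun _ => rfl) (fun c => hne _ _) fun c => ⟨e₀ / 2, half_pos he₀, fun ε hε hε' =>
          hev true (G.y c) (G.y (!c)) s (hsb c) ε hε hε'⟩
    refine ⟨S.omegaOut (r₀ := G.ρ₁) (εt := τ.ε) (D := D) G.seg G.hr G.hrρ G.h1r τ.hε ?_
      ⟨hD, hne, hj⟩ (by linarith) (by omega)⟩
    have e : n - 1 + 1 = n := by omega
    rw [e]
    exact ⟨τ.nrm, τ.coc, fun l _ _ h => τ.supp l h⟩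

/-- **OMEGA** for every `M` homeomorphic to the `n`-sphere, `n ≥ 2`, from the statement `Cross`. -/
theorem omega_of_homeo (hX : Cross) {n : ℕ} (hn : 2 ≤ n) (M : Type) [MetricSpace M]
    [CompactSpace M] {ρ : ℝ} (hρ : 0 < ρ) (hU : LS.UniqSeg M ρ)
    (h : Nonempty (M ≃ₜ Metric.sphere (0 : EuclideanSpace ℝ (Fin (n + 1))) 1)) (x₀ : M) :
    ∃ B : ℝ, 0 < B ∧ ∀ (k : Type) [Field k], Nonempty (B64.OmegaOut M (n - 1) x₀ B k) := by
  obtain ⟨h⟩ := h
  haveI := SCS.simplyConnected_sphere n hn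
  haveI : SimplyConnectedSpace M := SCS.simplyConnected_of_homeo h
  exact omega_of hX M hn hρ hU h x₀

end Vale.Agent.P216.N929
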