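import Vale.Agent.P216.H787.Edges

/-!
# Cup products and fibre integrals of list cochains
-/

open Finsupp

namespace Vale.Agent.P216.N929

open Vale.Agent.P216.Sl

variable {k : Type} [Field k]
variable {α β γ : Type}

/-! ### Small lists -/

/-- Lists with entries in `X` and mutual distances `< ε`. -/
def Fine [PseudoMetricSpace α] (X : Set α) (ε : ℝ) (l : List α) : Prop :=
  (∀ x ∈ l, x ∈ X) ∧ ∀ x ∈ l, ∀ y ∈ l, dist x y < ε

theorem Fine.sub [PseudoMetricSpace α] {X : Set α} {ε : ℝ} {l l' : List α} (h : Fine X ε l)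
    (hl : ∀ x ∈ l', x ∈ l) : Fine X ε l' :=
  ⟨fun x hx => h.1 x (hl x hx), fun x hx y hy => h.2 x (hl x hx) y (hl y hy)⟩

theorem Fine.mono [PseudoMetricSpace α] {X Y : Set α} {ε δ : ℝ} {l : List α} (h : Fine X ε l)
    (hX : X ⊆ Y) (hε : ε ≤ δ) : Fine Y δ l :=
  ⟨fun x hx => hX (h.1 x hx), fun x hx y hy => (h.2 x hx y hy).trans_le hε⟩

/-- `f` (of degree `m`) is a cocycle on the `ε`-small lists of `X`. -/
def Coc [PseudoMetricSpace α] (X : Set α) (ε : ℝ) (m : ℕ) (f : List α → k) : Prop :=
  ∀ l : List α, l.length = m + 2 → Fine X ε l → dl f l = 0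

theorem Coc.mono [PseudoMetricSpace α] {X Y : Set α} {ε δ : ℝ} {m : ℕ} {f : List α → k}
    (h : Coc Y δ m f) (hX : X ⊆ Y) (hε : ε ≤ δ) : Coc X ε m f :=
  fun l hl hf => h l hl (hf.mono hX hε)

/-! ### The boundary of a list -/

theorem bdL_sub (l : List α) :
    (bdL l : Ch k α) ∈ Sp k (fun l' => l'.length + 1 = l.length ∧ ∀ x ∈ l', x ∈ l) := by
  induction l with
  | nil => exact Submodule.zero_mem _
  | cons x l ih =>
    rw [bdL_cons]
    refine Submodule.sub_mem _ (single_mem (P := fun l' => l'.length + 1 = (x :: l).length ∧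
      ∀ y ∈ l', y ∈ x :: l) ⟨by simp, fun y hy => List.mem_cons_of_mem _ hy⟩ _) ?_
    exact map_mem _ (fun l' hl' => by
      rw [cons_single]
      refine single_mem ⟨by simp only [List.length_cons, hl'.1], ?_⟩ _
      intro y hy
      rcases List.mem_cons.1 hy with rfl | hy
      · exact List.mem_cons_self
      · exact List.mem_cons_of_mem _ (hl'.2 y hy)) ih

/-- `dl f l` only depends on `f` on the faces of `l`. -/
theorem dl_congr {f g : List α → k} {l : List α}
    (h : ∀ l' : List α, l'.length + 1 = l.length → (∀ x ∈ l', x ∈ l) → f l' = g l') :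
    dl f l = dl g l :=
  ev_congr (P := fun l' => l'.length + 1 = l.length ∧ ∀ x ∈ l', x ∈ l)
    (fun l' hl' => h l' hl'.1 hl'.2) (bdL_sub l)

theorem dl_eq_zero {f : List α → k} {l : List α}
    (h : ∀ l' : List α, l'.length + 1 = l.length → (∀ x ∈ l', x ∈ l) → f l' = 0) :
    dl f l = 0 :=
  ev_zero_of (P := fun l' => l'.length + 1 = l.length ∧ ∀ x ∈ l', x ∈ l)
    (fun l' hl' => h l' hl'.1 hl'.2) (bdL_sub l)

theorem dl_nil (f : List α → k) : dl f [] = 0 := by simp [dl, bdL_nil]

theorem dl_cons (f : List α → k) (x : α) (l : List α) :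
    dl f (x :: l) = f l - dl (fun l' => f (x :: l')) l := by
  rw [dl, bdL_cons, map_sub, ev_cons, ev_single, one_mul]
  rfl

theorem dl_map (f : List β → k) (g : α → β) (l : List α) :
    dl (fun l' => f (l'.map g)) l = dl f (l.map g) := by
  induction l generalizing f with
  | nil => rw [List.map_nil, dl_nil, dl_nil]
  | cons x l ih =>
    rw [dl_cons, List.map_cons, dl_cons]
    congr 1
    exact ih fun l' => f (g x :: l')

theorem dl_smul_fun (a : k) (f : List α → k) (l : List α) :
    dl (fun l' => a * f l') l = a * dl f l := ev_smul_fun a f _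

theorem dl_add_fun (f g : List α → k) (l : List α) :
    dl (fun l' => f l' + g l') l = dl f l + dl g l := ev_add_fun f g _

theorem dl_dl (f : List α → k) (l : List α) : dl (dl f) l = 0 := by
  rw [dl, ev_dl]
  have : bd (bdL l : Ch k α) = 0 := by
    have := bd_bd (single l (1 : k))
    rwa [bd_single, one_smul] at this
  rw [this, map_zero]

/-! ### Cup product -/

/-- The cup product of `f` (degree `n`) and `g`. -/
def cup (n : ℕ) (f g : List α → k) : List α → k := fun l => f (l.take (n + 1)) * g (l.drop n)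

theorem dl_const_one {x y : α} : dl (fun _ => (1 : k)) [x, y] = 0 := by
  rw [dl_cons, dl_cons, dl_nil]; simp

/-- Leibniz rule. -/
theorem dl_cup (n : ℕ) (f g : List α → k) : ∀ l : List α, n + 2 ≤ l.length →
    dl (cup n f g) l = dl f (l.take (n + 2)) * g (l.drop (n + 1)) +
      (-1) ^ n * (f (l.take (n + 1)) * dl g (l.drop n)) := by
  induction n generalizing f with
  | zero =>
    intro l hl
    obtain ⟨x, y, l, rfl⟩ : ∃ x y l', l = x :: y :: l' := by
      rcases l with _ | ⟨x, _ | ⟨y, l⟩⟩
      · simp at hl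
      · simp at hl
      · exact ⟨x, y, l, rfl⟩
    have h1 : dl (cup 0 f g) (x :: y :: l) = f [y] * g (y :: l) -
        f [x] * dl (fun l' => g (x :: l')) (y :: l) := by
      rw [dl_cons, ← dl_smul_fun]
      rfl
    rw [h1, pow_zero, one_mul, List.drop_zero]
    simp only [List.take_succ_cons, List.take_zero, List.drop_succ_cons, List.drop_zero]
    rw [dl_cons f, dl_cons _ y [], dl_nil, dl_cons g x]
    ring
  | succ n ih =>
    intro l hl
    obtain ⟨x, l, rfl⟩ : ∃ x l', l = x :: l' := by
      rcases l with _ | ⟨x, l⟩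
      · simp at hl
      · exact ⟨x, l, rfl⟩
    have hl' : n + 2 ≤ l.length := by simpa using hl
    have h1 : dl (cup (n + 1) f g) (x :: l) = cup (n + 1) f g l -
        dl (cup n (fun l' => f (x :: l')) g) l := by
      rw [dl_cons]
      rfl
    rw [h1, ih _ l hl']
    simp only [List.take_succ_cons, List.drop_succ_cons]
    rw [dl_cons f, cup, pow_succ]
    ring

theorem Nrm.cup {f g : List α → k} (n : ℕ) (hf : Nrm f) (hg : Nrm g) (l : List α)
    (hl : ¬ l.IsChain (· ≠ ·)) : N929.cup n f g l = 0 := by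
  by_contra h
  have h1 : f (l.take (n + 1)) ≠ 0 := left_ne_zero_of_mul h
  have h2 : g (l.drop n) ≠ 0 := right_ne_zero_of_mul h
  have h3 : (l.take (n + 1)).IsChain (· ≠ ·) := by
    by_contra hc; exact h1 (hf _ hc)
  have h4 : (l.drop n).IsChain (· ≠ ·) := by
    by_contra hc; exact h2 (hg _ hc)
  apply hl
  rw [List.isChain_iff_getElem] at h3 h4 ⊢
  intro i hi
  by_cases hin : i < n
  · have := h3 i (by simp only [List.length_take]; omega)
    simpa [List.getElem_take] using this
  · have := h4 (i - n) (by simp only [List.length_drop]; omega)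
    simp only [List.getElem_drop] at this
    have e1 : n + (i - n) = i := by omega
    have e2 : n + (i - n + 1) = i + 1 := by omega
    simpa [e1, e2] using this

/-! ### Fibre integral over a chain -/

/-- Fibre integral over the chain `c`. -/
noncomputable def fib (c : Ch k β) (f : List (α × β) → k) : List α → k :=
  fun l => ev f (sh (single l 1) c)

theorem ev_fib (c : Ch k β) (f : List (α × β) → k) (z : Ch k α) :
    ev (fib c f) z = ev f (sh z c) := by
  have := lin_ext_apply (f := ev (fib c f)) (g := (ev f).comp ((sh (k := k)).flip c))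
    (fun l => by simp [fib]) z
  simpa using this

theorem fib_add (c c' : Ch k β) (f : List (α × β) → k) (l : List α) :
    fib (c + c') f l = fib c f l + fib c' f l := by
  simp [fib]

theorem fib_zero (f : List (α × β) → k) (l : List α) : fib 0 f l = 0 := by
  simp [fib]

/-- The differential of a fibre integral over a 1-chain. -/
theorem dl_fib {c : Ch k β} (hc : c ∈ Sp k (Ln 2)) (f : List (α × β) → k) {l : List α}
    (hl : l ≠ []) : dl (fib c f) l = fib c (dl f) l +
      (-1) ^ l.length * ev f (sh (single l 1) (bd c)) := by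
  have h1 : dl (fib c f) l = ev f (sh (bd (single l 1)) c) := by
    rw [dl, ev_fib, bd_single, one_smul]
  obtain ⟨p, hp⟩ : ∃ p, l.length = p + 1 :=
    ⟨l.length - 1, by have := List.length_pos_iff.2 hl; omega⟩
  have h2 := bd_sh (k := k) (p := p) (q := 1) (by omega)
    (single_mem (P := Ln (p + 1)) (l := l) hp 1) hc
  have h3 := congrArg (ev f) h2
  rw [map_add, map_smul, ← ev_dl] at h3
  rw [h1, fib, h3, hp, pow_succ]
  simp

theorem ev_sh_point (f : List (α × β) → k) {l : List α} (hl : l ≠ []) (b : β) :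
    ev f (sh (single l 1) (single [b] (1 : k))) = f (l.map fun a => (a, b)) := by
  rw [sh_point_right b (single_mem (P := Ne) hl 1), mp_single, ev_single, one_mul]

/-- If `dl f` vanishes on the lists of the grid and `f` on the two ends, the fibre integral is
closed at `l`. -/
theorem dl_fib_eq {c : Ch k β} (hc : c ∈ Sp k (Ln 2)) {b0 b1 : β}
    (hb : bd c = single [b1] 1 - single [b0] 1) (f : List (α × β) → k) {l : List α}
    (hl : l ≠ []) (h1 : f (l.map fun a => (a, b1)) = 0) (h0 : f (l.map fun a => (a, b0)) = 0) :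
    dl (fib c f) l = fib c (dl f) l := by
  rw [dl_fib hc f hl, hb, map_sub, map_sub, ev_sh_point f hl, ev_sh_point f hl, h1, h0]
  ring

/-- Values of a fibre integral only depend on the values on the grid. -/
theorem fib_congr {c : Ch k β} {Q : List β → Prop} (hc : c ∈ Sp k Q) {f g : List (α × β) → k}
    {l : List α} (h : ∀ t, Q t → ∀ l', Gr l t l' → f l' = g l') : fib c f l = fib c g l :=
  ev_congr (P := fun l' => ∃ t, Q t ∧ Gr l t l') (fun l' ⟨t, ht, hl'⟩ => h t ht l' hl')
    (sh_mem (P := fun s => s = l) (Q := Q) (fun s t l' hs ht hg => ⟨t, ht, hs ▸ hg⟩)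
      (single_mem (P := fun s => s = l) rfl 1) hc)

theorem fib_eq_zero {c : Ch k β} {Q : List β → Prop} (hc : c ∈ Sp k Q) {f : List (α × β) → k}
    {l : List α} (h : ∀ t, Q t → ∀ l', Gr l t l' → f l' = 0) : fib c f l = 0 := by
  have := fib_congr hc (g := fun _ => 0) h
  rw [this, fib, ev_zero_fun]

theorem fib_smul_fun (c : Ch k β) (a : k) (f : List (α × β) → k) (l : List α) :
    fib c (fun l' => a * f l') l = a * fib c f l := ev_smul_fun _ _ _

/-- Naturality in the base. -/
theorem fib_map (c : Ch k β) (f : List (γ × β) → k) (g : α → γ) (l : List α) :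
    fib c f (l.map g) = fib c (fun l' => f (l'.map (Prod.map g id))) l := by
  have h := sh_mp (k := k) g (id : β → β) (single l 1) c
  have hid : mp (id : β → β) c = c := by
    have := lin_ext_apply (f := mp (k := k) (id : β → β)) (g := LinearMap.id)
      (fun l => by simp) c
    simpa using this
  rw [hid, mp_single] at h
  rw [fib, h, ev_mp]
  rfl

/-! ### The mesh -/

/-- The edge `[jδ, (j+1)δ]`. -/
noncomputable def edge (k : Type) [Field k] (δ : ℝ) (j : ℕ) : Ch k ℝ :=
  single [j * δ, (j + 1 : ℕ) * δ] 1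

/-- The subdivided interval `[0, Nδ]`. -/
noncomputable def mesh (k : Type) [Field k] (δ : ℝ) (N : ℕ) : Ch k ℝ :=
  ∑ j ∈ Finset.range N, edge k δ j

theorem bd_edge (δ : ℝ) (j : ℕ) :
    bd (edge k δ j) = single [((j + 1 : ℕ) : ℝ) * δ] 1 - single [(j : ℝ) * δ] 1 := by
  rw [edge, bd_single, one_smul, bdL_cons, bdL_cons, bdL_nil, map_zero, sub_zero, cons_single]

theorem bd_mesh (δ : ℝ) (N : ℕ) :
    bd (mesh k δ N) = single [(N : ℝ) * δ] 1 - single [0] 1 := by
  rw [mesh, map_sum]
  simp_rw [bd_edge]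
  rw [Finset.sum_range_sub (fun j : ℕ => (single [(j : ℝ) * δ] 1 : Ch k ℝ))]
  simp

/-- Lists supporting the mesh. -/
def Ed (δ : ℝ) (t : List ℝ) : Prop := ∃ j : ℕ, t = [j * δ, (j + 1 : ℕ) * δ]

theorem mesh_mem (δ : ℝ) (N : ℕ) :
    mesh k δ N ∈ Sp k (fun t => ∃ j < N, t = [j * δ, (j + 1 : ℕ) * δ]) :=
  Submodule.sum_mem _ fun j hj => single_mem ⟨j, Finset.mem_range.1 hj, rfl⟩ 1

theorem mesh_Ln (δ : ℝ) (N : ℕ) : mesh k δ N ∈ Sp k (Ln 2) :=
  Sp_mono (fun t ⟨j, _, ht⟩ => by rw [ht]; rfl) (mesh_mem δ N)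

/-- The fibre integral over `[0, ∞)` (mesh `δ`), for functions with bounded support. -/
noncomputable def fibI (δ : ℝ) (f : List (α × ℝ) → k) : List α → k :=
  fun l => ∑ᶠ j : ℕ, fib (edge k δ j) f l

theorem fib_mesh (δ : ℝ) (N : ℕ) (f : List (α × ℝ) → k) (l : List α) :
    fib (mesh k δ N) f l = ∑ j ∈ Finset.range N, fib (edge k δ j) f l := by
  simp [fib, mesh]

theorem fibI_eq {δ : ℝ} {N : ℕ} {f : List (α × ℝ) → k} {l : List α}
    (h : ∀ j ≥ N, fib (edge k δ j) f l = 0) : fibI δ f l = fib (mesh k δ N) f l := by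
  rw [fibI, fib_mesh]
  refine finsum_eq_sum_of_support_subset _ fun j hj => ?_
  rw [Finset.coe_range, Set.mem_Iio]
  by_contra hn
  exact hj (h j (not_lt.1 hn))

end Vale.Agent.P216.N929
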