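import Vale.Agent.P216.N929.Om
import Vale.Agent.P216.N970.Fibre
import Vale.Agent.P216.H971.Mesh
import Vale.Agent.P216.H787.Cls

/-!
# Properties of the classes `om b j`: evaluation, births (i), (ii)
-/

open Finsupp Set BoundedContinuousFunction

namespace Vale.Agent.P216.N929

open Vale.Agent.P216.Sl Vale.Agent.P216.PS

variable {k : Type} [Field k]

section

variable {α : Type} [PseudoMetricSpace α]

theorem bd_eq_zero {X : Set α} {ε : ℝ} {m : ℕ} {z : Ch k α} (hz : Cy X ε m z) (hm : m ≠ 0) :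
    bd z = 0 := by
  obtain ⟨m, rfl⟩ := Nat.exists_eq_succ_of_ne_zero hm
  have h1 : bd z ∈ Sp k (Ln (m + 1)) := bd_mem' (Sp_mono (fun l hl => hl.1) hz.1)
  have h2 := hz.2
  rw [Finsupp.mem_supported] at h1 h2
  rw [← Finsupp.support_eq_empty, ← Finset.coe_eq_empty, Set.eq_empty_iff_forall_notMem]
  intro l hl
  have a1 : l.length = m + 1 := h1 hl
  have a2 : l.length = 0 := h2 hl
  omega

theorem Cy.mono {X Y : Set α} {ε δ : ℝ} {m : ℕ} {z : Ch k α} (hz : Cy X ε m z) (h : X ⊆ Y)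
    (h' : ε ≤ δ) : Cy Y δ m z := ⟨Sp_mono (fun _ hl => ⟨hl.1, hl.2.mono h h'⟩) hz.1, hz.2⟩

theorem ex_iff {X : Set α} {m : ℕ} {f : List α → k} : Ex X m f ↔ ExL X m f := by
  constructor
  · rintro ⟨ε, hε, h⟩
    rcases Nat.eq_zero_or_pos m with rfl | hm
    · refine ⟨fun _ => 0, fun _ _ => rfl, ε, hε, fun l hl hs => ?_⟩
      rw [PS.dl_zero_fun]
      have h1 := h (single l 1) ⟨single_mem ⟨hl, hs⟩ _, ?_⟩
      · rwa [ev_single, one_mul] at h1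
      · exact bd_mem' (single_mem (P := Ln 1) hl _)
    · obtain ⟨g, hg⟩ := exists_dl_of_cycles (P := fun l => l.length = m + 1 ∧ SmL X ε l) (f := f)
        fun z hz hb => h z ⟨hz, by rw [hb]; exact Submodule.zero_mem _⟩
      exact ⟨g, fun h0 => absurd h0 hm.ne', ε, hε, fun l hl hs => hg l ⟨hl, hs⟩⟩
  · rintro ⟨g, hg, ε, hε, h⟩
    refine ⟨ε, hε, fun z hz => ?_⟩
    rw [ev_congr (g := dl g) (fun l hl => h l hl.1 hl.2) hz.1, ev_dl]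
    rcases Nat.eq_zero_or_pos m with rfl | hm
    · refine ev_zero_of (P := Ln 0) (fun l _ => hg rfl l) hz.2
    · rw [bd_eq_zero hz hm.ne', map_zero]

theorem not_ex_iff {X : Set α} {m : ℕ} {f : List α → k} :
    ¬ ExL X m f ↔ ∀ ε > 0, ∃ z, Cy X ε m z ∧ ev f z ≠ 0 := by
  rw [← ex_iff, Ex]
  push Not
  rfl

end

variable {M : Type} [MetricSpace M] [CompactSpace M] {n : ℕ} (G : Geo M n) (τ : Tau k M n G.ρ₁)

theorem om_cocL (b : Bool) (j : ℕ) (T : ℝ) :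
    CocL (P G.x₀ (G.y b) T) (j * (n - 1)) (om G τ b j) :=
  ⟨omε G τ b j, omε_pos G τ b j, om_coc G τ b j T⟩

theorem deg_succ (j : ℕ) (hn : 1 ≤ n) : (j + 1) * (n - 1) + 1 = n + j * (n - 1) := by
  rw [Nat.add_mul, Nat.one_mul]
  omega

theorem edge_mesh {δ η : ℝ} (hδ : 0 < δ) (h : δ < η) (N : ℕ) :
    Edge (k := k) 0 (N * δ) η (mesh k δ N) := by
  refine ⟨Sp_mono (fun l hl => ?_) (mesh_mem δ N), bd_mesh δ N⟩
  obtain ⟨j, hj, rfl⟩ := hl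
  have hj' : ((j + 1 : ℕ) : ℝ) ≤ N := by exact_mod_cast hj
  have h2 : ((j + 1 : ℕ) : ℝ) * δ ≤ N * δ := mul_le_mul_of_nonneg_right hj' hδ.le
  have h3 : (0 : ℝ) ≤ j * δ := by positivity
  have e : ((j + 1 : ℕ) : ℝ) * δ = j * δ + δ := by push_cast; ring
  refine ⟨rfl, fun x hx => ?_, fun x hx y hy => ?_⟩
  · simp only [List.mem_cons, List.not_mem_nil, or_false] at hx
    rcases hx with rfl | rfl
    · exact ⟨h3, by linarith⟩
    · exact ⟨by linarith, h2⟩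
  · simp only [List.mem_cons, List.not_mem_nil, or_false] at hx hy
    rcases hx with rfl | rfl <;> rcases hy with rfl | rfl <;> rw [Real.dist_eq, abs_lt] <;>
      constructor <;> linarith

variable {G τ} in
/-- The integral over `[0, T]` and `[0, T']`. -/
theorem ev_mesh_eq (b : Bool) {m d : ℕ} (hm : m + 1 = n + d) {g : List (ℝ →ᵇ M) → k} {ε η : ℝ}
    (hs : Scl τ G.r (G.y (!b)) ε η) {T T' : ℝ} (hg : Coc (P G.x₀ (G.y (!b)) (T' + G.r)) ε d g)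
    (hT : 0 ≤ T) (hTT : T ≤ T') {z : Ch k (ℝ →ᵇ M)}
    (hz : Cy (P G.x₀ (G.y b) T) η m z) {ι ι' : Ch k ℝ} (hι : Edge 0 T η ι) (hι' : Edge 0 T' η ι') :
    ev (Sg.aL n τ.f g G.r (G.y (!b))) (sh z ι) = ev (Sg.aL n τ.f g G.r (G.y (!b))) (sh z ι') := by
  have hn := G.hn
  refine Sg.ev_aL_mesh (x₀ := G.x₀) (x₁ := G.y b) (C := T) (C' := T') (δ := η) (εt := τ.ε)
    (εo := ε) (r₀ := G.ρ₁) G.seg G.hr G.hrρ (by omega) hm τ.nrm hs.pos hs.h2 (by linarith [hs.h3])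
    τ.coc (fun l _ _ h => τ.supp l h) hg ?_ (fun c hc hb => H971.cycle_bd hc hb) hz.1
    (bd_eq_zero hz (by omega)) hT hTT hι.1 hι.2 hι'.1 hι'.2
  intro w hw w' hw' σ σ' h1 h2 h3 h4
  exact hs.mod w w' hw.1 hw'.1 σ σ' h1 h2 h3 h4

/-- **Evaluation** of `om b (j + 1)` on fine cycles, with any fine mesh. -/
theorem om_eval (b : Bool) (j : ℕ) {T T' : ℝ} (hT : 0 ≤ T) (hTT : T ≤ T') {η : ℝ} (hη : 0 < η)
    (hη' : η ≤ omε G τ b (j + 1)) {z : Ch k (ℝ →ᵇ M)}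
    (hz : Cy (P G.x₀ (G.y b) T) η ((j + 1) * (n - 1)) z)
    {ι : Ch k ℝ} (hι : Edge 0 T' η ι) :
    ev (om G τ b (j + 1)) z = ev (Sg.aL n τ.f (om G τ (!b) j) G.r (G.y (!b))) (sh z ι) := by
  have hn := G.hn
  have hd := deg_succ (n := n) j (by omega)
  have hs := om_scl G τ b j
  obtain ⟨ι₁, h1, h2⟩ := Sg.exists_seg' k hT hη
  rw [← ev_mesh_eq b hd (hs.mono hη hη') (om_coc G τ (!b) j _) hT hTT hz ⟨h1, h2⟩ hι]
  set δ : ℝ := omε G τ b (j + 1) / 2 with hδ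
  have hε := omε_pos G τ b (j + 1)
  have hδ0 : 0 < δ := half_pos hε
  obtain ⟨N, hN⟩ := exists_nat_gt (T / δ)
  have hN' : T ≤ N * δ := by rw [div_lt_iff₀ hδ0] at hN; exact hN.le
  rw [ev_mesh_eq b hd hs (om_coc G τ (!b) j _) hT hN' (hz.mono le_rfl hη')
    ⟨Sp_mono (fun l hl => ⟨hl.1, SmL.mono hl.2 le_rfl hη'⟩) h1, h2⟩
    (edge_mesh hδ0 (half_lt_self hε) N)]
  rw [om_succ, ev_congr (g := fib (mesh k δ N) (intg n τ.f (om G τ (!b) j) G.r (G.y (!b))))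
    (fun l hl => stp_eq (x₀ := G.x₀) (T := T) τ (G.hy b) hδ0 hN'
      (by have := hl.1; rintro rfl; simp at this) fun w hw => hl.2.1 w hw) hz.1, ev_fib]
  rfl

/-- **(i)** `C_{j+1} ≥ C_j - r`. -/
theorem om_down (b : Bool) (j : ℕ) {S T : ℝ} (hT : 0 ≤ T) (hS : T + G.r ≤ S)
    (h : ExL (P G.x₀ (G.y (!b)) S) (j * (n - 1)) (om G τ (!b) j)) :
    ExL (P G.x₀ (G.y b) T) ((j + 1) * (n - 1)) (om G τ b (j + 1)) := by
  have hn := G.hn
  have hd := deg_succ (n := n) j (by omega)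
  obtain ⟨g, hg0, ε', hε', hg⟩ := h
  obtain ⟨η₁, hs₁⟩ := exists_scl τ G.h1r (cutMod G.seg G.hr G.hrρ (G.y (!b))) hε'
  have hε := omε_pos G τ b (j + 1)
  have hη : 0 < min η₁ (omε G τ b (j + 1)) := lt_min hs₁.pos hε
  refine ex_iff.1 ⟨min η₁ (omε G τ b (j + 1)), hη, fun z hz => ?_⟩
  set η := min η₁ (omε G τ b (j + 1)) with hη'
  have hs := hs₁.mono hη (min_le_left _ _)
  obtain ⟨ι, h1, h2⟩ := Sg.exists_seg' k hT hη
  rw [om_eval G τ b j hT le_rfl hη (min_le_right _ _) hz ⟨h1, h2⟩]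
  have key : ev (Sg.aL n τ.f (om G τ (!b) j) G.r (G.y (!b))) (sh z ι) =
      ev (Sg.aL n τ.f (dl g) G.r (G.y (!b))) (sh z ι) := by
    refine ev_congr (fun L hL => ?_) (Sg.Sp_SmL_sh (q := 1) hz.1 h1)
    refine intg_congr (x₀ := G.x₀) (y' := G.y b) (T := T) (S := T) τ G.seg G.hr G.hrρ hs
      (L := L) ⟨fun p hp => ?_, hL.2.2⟩ (by rintro rfl; simp at hL) fun l hl hf => ?_
    · have := hL.2.1 p hp
      exact ⟨this.1, this.2.1, this.2.2⟩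
    · refine hg l ?_ (SmL.mono hf (P_mono hS) le_rfl)
      rw [hl, hL.1]
      omega
  rw [key]
  rcases Nat.eq_zero_or_pos (j * (n - 1)) with h0 | h0
  · refine ev_zero_of (fun L _ => ?_) (Sg.Sp_SmL_sh (q := 1) hz.1 h1)
    have e : dl g = fun _ => 0 := by
      funext l
      rw [show g = fun _ => 0 from funext (hg0 h0), PS.dl_zero_fun]
    rw [Sg.aL, e, mul_zero]
  · exact Sg.ev_aL_dl (x₀ := G.x₀) (x₁ := G.y b) (C := T) (C' := T) (δ := η) (εt := τ.ε)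
      (by omega) h0 hd τ.nrm hs.h2 τ.coc g hz.1 (bd_eq_zero hz (by omega)) h1 le_rfl h2

/-- **(ii)** from the statement `Cross`. -/
theorem om_up (hX : Cross) [SimplyConnectedSpace M] (b : Bool) (j : ℕ) {c ℓ s : ℝ} (hc : 0 ≤ c)
    (hℓ : 0 ≤ ℓ) (hs : 0 ≤ s) {v : ℝ →ᵇ M} (hv : v ∈ P (G.y (!b)) (G.y b) ℓ)
    (ha : ∃ ε₁ > 0, ∀ ε, 0 < ε → ε ≤ ε₁ → ∃ a : Ch k (ℝ →ᵇ M),
      Cy (P (G.y b) (G.y b) s) ε (n - 1) a ∧ ∀ ι, Edge 0 s ε ι →
        ev (fun l => τ.f (l.map (evp (G.y (!b))))) (sh a ι) = 1)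
    (h : ¬ ExL (P G.x₀ (G.y (!b)) c) (j * (n - 1)) (om G τ (!b) j)) :
    ¬ ExL (P G.x₀ (G.y b) (c + ℓ + s)) ((j + 1) * (n - 1)) (om G τ b (j + 1)) := by
  have hn := G.hn
  have hd := deg_succ (n := n) j (by omega)
  have hT : 0 ≤ c + ℓ + s := by positivity
  rw [not_ex_iff] at h ⊢
  intro ε hε
  obtain ⟨Z, hZ, ι, hι, hne⟩ := hX M G.ρ₀ G.ρ₁ G.r G.x₀ (G.y (!b)) (G.y b) c ℓ s v k n
    (j * (n - 1)) τ (om G τ (!b) j) (omε G τ (!b) j) G.seg G.hr G.hrρ G.h1 G.h1r (G.hy b) (G.hx _)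
    hn hc hℓ hs hv (om_nrm G τ _ _) (omε_pos G τ _ _) (om_coc G τ _ _) ha h
    (min ε (omε G τ b (j + 1))) (lt_min hε (omε_pos G τ _ _))
  have e : j * (n - 1) + n - 1 = (j + 1) * (n - 1) := by omega
  rw [e] at hZ
  refine ⟨Z, hZ.mono le_rfl (min_le_left _ _), ?_⟩
  rw [om_eval G τ b j hT le_rfl (lt_min hε (omε_pos G τ _ _)) (min_le_right _ _) hZ hι]
  exact hne

end Vale.Agent.P216.N929
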