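import Vale.Agent.P216.N929.Om1
import Vale.Agent.P216.H456.CutUnif

/-!
# Blocks B35, B38: shared definitions and exact statements of the pieces
-/

open Finsupp Set BoundedContinuousFunction

namespace Vale.Agent.P216.N929

open Vale.Agent.P216.Sl Vale.Agent.P216.PS

section

variable {k : Type} [Field k] {α : Type} [PseudoMetricSpace α]

/-- `ε`-fine cycles of degree `m` (in degree `0`: all chains). -/
def Cy (X : Set α) (ε : ℝ) (m : ℕ) (z : Ch k α) : Prop :=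
  z ∈ Sp k (fun l => l.length = m + 1 ∧ Fine X ε l) ∧ bd z ∈ Sp k (Ln 0)

/-- `f` is exact on `X`: it kills all fine cycles. -/
def Ex (X : Set α) (m : ℕ) (f : List α → k) : Prop :=
  ∃ ε > 0, ∀ z, Cy X ε m z → ev f z = 0

/-- A fine chain from `a` to `b`. -/
def Edge (a b ε : ℝ) (ι : Ch k ℝ) : Prop :=
  ι ∈ Sp k (fun l => l.length = 2 ∧ Fine (Icc a b) ε l) ∧ bd ι = single [b] 1 - single [a] 1

/-- The unit cochain. -/
def one1 (k : Type) [Field k] (α : Type) : List α → k := fun l => if l.length = 1 then 1 else 0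

end

/-- **(ii) in cycle language.** `g` = a cocycle of degree `m` on the paths from `x₀` to `p`
(any duration); `z ∈ P x₀ p c` with `⟨g, z⟩ ≠ 0`; `a` = a cycle of degree `n - 1` of loops at `q` of
duration `s` crossing `p` (degree `≠ 0`); `v` = a path from `p` to `q`. Then `z * v * a` is a cycle
of paths from `x₀` to `q` on which `∫ τ(w σ, p) ∪ g(w|[0,σ])` is not zero. -/
def Cross : Prop := ∀ (M : Type) [MetricSpace M] [CompactSpace M] [SimplyConnectedSpace M]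
  (ρ₀ ρ₁ r : ℝ) (x₀ p q : M) (c ℓ s : ℝ) (v : ℝ →ᵇ M)
  (k : Type) [Field k] (n m : ℕ) (τ : Tau k M n ρ₁) (g : List (ℝ →ᵇ M) → k) (ε₀ : ℝ),
  LS.UniqSeg M ρ₀ → 0 < r → r < ρ₀ → 0 < ρ₁ → ρ₁ < r → ρ₁ ≤ dist q p → ρ₁ ≤ dist x₀ p → 2 ≤ n →
  0 ≤ c → 0 ≤ ℓ → 0 ≤ s → v ∈ P p q ℓ → Nrm g → 0 < ε₀ → (∀ T, Coc (P x₀ p T) ε₀ m g) →
  (∃ ε₁ > 0, ∀ ε, 0 < ε → ε ≤ ε₁ → ∃ a : Ch k (ℝ →ᵇ M), Cy (P q q s) ε (n - 1) a ∧
    ∀ ι, Edge 0 s ε ι → ev (fun l => τ.f (l.map (evp p))) (sh a ι) = 1) →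
  (∀ ε > 0, ∃ z : Ch k (ℝ →ᵇ M), Cy (P x₀ p c) ε m z ∧ ev g z ≠ 0) →
  ∀ ε > 0, ∃ Z : Ch k (ℝ →ᵇ M), Cy (P x₀ q (c + ℓ + s)) ε (m + n - 1) Z ∧
    ∃ ι, Edge 0 (c + ℓ + s) ε ι ∧ ev (intg n τ.f g r p) (sh Z ι) ≠ 0

end Vale.Agent.P216.N929
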