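import Vale.Agent.P216.N929.Om2
import Vale.Agent.P216.N970.Det

/-!
# The step `stp` for an arbitrary cochain `g`

Generic versions of the statements of `Om2.lean`, `Sys.lean`: `stp n τ.f r δ y g` is the fibre
integral of `τ(w σ, y) ∪ g(w|[0, σ] * segment to y)`, for a normalised list cocycle `g` of degree
`d` on the paths from `x₀` to `y` (all durations); it is a cocycle of degree `m = n + d - 1` on the
paths from `x₀` to `y'`.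
-/

open Finsupp Set BoundedContinuousFunction

namespace Vale.Agent.P216.N929

open Vale.Agent.P216.Sl Vale.Agent.P216.PS

variable {k : Type} [Field k] {M : Type} [MetricSpace M] [CompactSpace M]
  {n m d : ℕ} {ρ₀ ρ₁ r δ ε η : ℝ} {x₀ y y' : M} {g : List (ℝ →ᵇ M) → k}

/-- The integral over `[0, T]` and `[0, T']`. -/
theorem stp_mesh_eq (τ : Tau k M n ρ₁) (hseg : LS.UniqSeg M ρ₀) (hr : 0 < r) (hrρ : r < ρ₀)
    (hn : 2 ≤ n) (hm : m + 1 = n + d) (hs : Scl τ r y ε η) {T T' : ℝ}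
    (hg : Coc (P x₀ y (T' + r)) ε d g) (hT : 0 ≤ T) (hTT : T ≤ T') {z : Ch k (ℝ →ᵇ M)}
    (hz : Cy (P x₀ y' T) η m z) {ι ι' : Ch k ℝ} (hι : Edge 0 T η ι) (hι' : Edge 0 T' η ι') :
    ev (Sg.aL n τ.f g r y) (sh z ι) = ev (Sg.aL n τ.f g r y) (sh z ι') := by
  refine Sg.ev_aL_mesh (x₀ := x₀) (x₁ := y') (C := T) (C' := T') (δ := η) (εt := τ.ε)
    (εo := ε) (r₀ := ρ₁) hseg hr hrρ (by omega) hm τ.nrm hs.pos hs.h2 (by linarith [hs.h3])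
    τ.coc (fun l _ _ h => τ.supp l h) hg ?_ (fun c hc hb => H971.cycle_bd hc hb) hz.1
    (bd_eq_zero hz (by omega)) hT hTT hι.1 hι.2 hι'.1 hι'.2
  intro w hw w' hw' σ σ' h1 h2 h3 h4
  exact hs.mod w w' hw.1 hw'.1 σ σ' h1 h2 h3 h4

/-- **Evaluation** of the step on fine cycles, with any fine mesh. -/
theorem stp_eval (τ : Tau k M n ρ₁) (hseg : LS.UniqSeg M ρ₀) (hr : 0 < r) (hrρ : r < ρ₀)
    (hn : 2 ≤ n) (hm : m + 1 = n + d) {η₀ : ℝ} (hs : Scl τ r y ε η₀) (hy : ρ₁ ≤ dist y' y)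
    (hg : ∀ T, Coc (P x₀ y T) ε d g) (hδ0 : 0 < δ) (hδ : δ < η₀) {T T' : ℝ} (hT : 0 ≤ T)
    (hTT : T ≤ T') (hη : 0 < η) (hη' : η ≤ η₀) {z : Ch k (ℝ →ᵇ M)} (hz : Cy (P x₀ y' T) η m z)
    {ι : Ch k ℝ} (hι : Edge 0 T' η ι) :
    ev (stp n τ.f r δ y g) z = ev (Sg.aL n τ.f g r y) (sh z ι) := by
  obtain ⟨ι₁, h1, h2⟩ := Sg.exists_seg' k hT hη
  rw [← stp_mesh_eq τ hseg hr hrρ hn hm (hs.mono hη hη') (hg _) hT hTT hz ⟨h1, h2⟩ hι]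
  obtain ⟨N, hN⟩ := exists_nat_gt (T / δ)
  have hN' : T ≤ N * δ := by rw [div_lt_iff₀ hδ0] at hN; exact hN.le
  rw [stp_mesh_eq τ hseg hr hrρ hn hm hs (hg _) hT hN' (hz.mono le_rfl hη')
    ⟨Sp_mono (fun l hl => ⟨hl.1, SmL.mono hl.2 le_rfl hη'⟩) h1, h2⟩ (edge_mesh hδ0 hδ N)]
  rw [ev_congr (g := fib (mesh k δ N) (intg n τ.f g r y))
    (fun l hl => stp_eq (x₀ := x₀) (T := T) τ hy hδ0 hN'
      (by have := hl.1; rintro rfl; simp at this) fun w hw => hl.2.1 w hw) hz.1, ev_fib]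
  rfl

/-- **(i)** If `g` is exact on the paths of duration `S ≥ T + r`, the step is exact on the paths
of duration `T`. -/
theorem stp_down (τ : Tau k M n ρ₁) (hseg : LS.UniqSeg M ρ₀) (hr : 0 < r) (hrρ : r < ρ₀)
    (h1r : ρ₁ < r) (hn : 2 ≤ n) (hm : m + 1 = n + d) {η₀ : ℝ} (hs : Scl τ r y ε η₀)
    (hy : ρ₁ ≤ dist y' y) (hg : ∀ T, Coc (P x₀ y T) ε d g) (hδ0 : 0 < δ) (hδ : δ < η₀)
    {S T : ℝ} (hT : 0 ≤ T) (hS : T + r ≤ S) (h : ExL (P x₀ y S) d g) :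
    ExL (P x₀ y' T) m (stp n τ.f r δ y g) := by
  obtain ⟨s, hs0, ε', hε', hse⟩ := h
  obtain ⟨η₁, hs₁⟩ := exists_scl τ h1r (cutMod hseg hr hrρ y) hε'
  have hη : 0 < min η₁ η₀ := lt_min hs₁.pos hs.pos
  refine ex_iff.1 ⟨min η₁ η₀, hη, fun z hz => ?_⟩
  set η := min η₁ η₀ with hη'
  have hsc := hs₁.mono hη (min_le_left _ _)
  obtain ⟨ι, h1, h2⟩ := Sg.exists_seg' k hT hη
  rw [stp_eval τ hseg hr hrρ hn hm hs hy hg hδ0 hδ hT le_rfl hη (min_le_right _ _) hz ⟨h1, h2⟩]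
  have key : ev (Sg.aL n τ.f g r y) (sh z ι) = ev (Sg.aL n τ.f (dl s) r y) (sh z ι) := by
    refine ev_congr (fun L hL => ?_) (Sg.Sp_SmL_sh (q := 1) hz.1 h1)
    refine intg_congr (x₀ := x₀) (y' := y') (T := T) (S := T) τ hseg hr hrρ hsc
      (L := L) ⟨fun p hp => ?_, hL.2.2⟩ (by rintro rfl; simp at hL) fun l hl hf => ?_
    · have := hL.2.1 p hp
      exact ⟨this.1, this.2.1, this.2.2⟩
    · refine hse l ?_ (SmL.mono hf (P_mono hS) le_rfl)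
      rw [hl, hL.1]
      omega
  rw [key]
  rcases Nat.eq_zero_or_pos d with h0 | h0
  · refine ev_zero_of (fun L _ => ?_) (Sg.Sp_SmL_sh (q := 1) hz.1 h1)
    have e : dl s = fun _ => 0 := by
      funext l
      rw [show s = fun _ => 0 from funext (hs0 h0), PS.dl_zero_fun]
    rw [Sg.aL, e, mul_zero]
  · exact Sg.ev_aL_dl (x₀ := x₀) (x₁ := y') (C := T) (C' := T) (δ := η) (εt := τ.ε)
      (by omega) h0 hm τ.nrm hsc.h2 τ.coc s hz.1 (bd_eq_zero hz (by omega)) h1 le_rfl h2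

/-- Detection of the step by cycles, `g` replaced by `g - dl s`. -/
theorem stp_det (τ : Tau k M n ρ₁) (hseg : LS.UniqSeg M ρ₀) (hr : 0 < r) (hrρ : r < ρ₀)
    (hn : 2 ≤ n) (hm : m + 1 = n + d) {η₀ : ℝ} (hs : Scl τ r y ε η₀) (hy : ρ₁ ≤ dist y' y)
    (hg : ∀ T, Coc (P x₀ y T) ε d g) (hδ0 : 0 < δ) (hδ : δ < η₀) {C : ℝ} (hC : 0 ≤ C)
    {s : List (ℝ →ᵇ M) → k} (hs0 : d = 0 → s = fun _ => 0)
    (hne : ¬ ExL (P x₀ y' C) m (stp n τ.f r δ y g)) (δ' : ℝ) (hδ' : 0 < δ') :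
    ∃ z : Ch k (ℝ →ᵇ M), z ∈ Sp k (fun l => l.length = m + 1 ∧ SmL (P x₀ y' C) δ' l) ∧
      bd z = 0 ∧ ∃ ι : Ch k ℝ, ι ∈ Sp k (fun l => l.length = 2 ∧ SmL (Icc 0 C) δ' l) ∧
        bd ι = single [C] 1 - single [0] 1 ∧
        ev (Sg.aL n τ.f (fun l => g l - dl s l) r y) (sh z ι) = 1 := by
  refine Sg.det_of (F := stp n τ.f r δ y g) (b := d) (by omega) hm (by omega) τ.nrm τ.hε τ.coc
    hs0 hC hne ⟨η₀, hs.pos, fun z hz hb ι hι hbι => ?_⟩ δ' hδ'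
  exact stp_eval τ hseg hr hrρ hn hm hs hy hg hδ0 hδ hC le_rfl hs.pos le_rfl
    ⟨hz, by rw [hb]; exact Submodule.zero_mem _⟩ ⟨hι, hbι⟩

end Vale.Agent.P216.N929
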