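import Vale.Agent.P216.N929.Fib0
import Vale.Agent.P216.H311.PathSp

/-!
# The classes `om j` (block B35): one step of the recursion

`stp` = fibre integral of `τ(w σ, y) ∪ g(w|[0, σ] * short segment to y)`.
-/

open Finsupp Set BoundedContinuousFunction

namespace Vale.Agent.P216.N929

open Vale.Agent.P216.Sl Vale.Agent.P216.PS

variable {k : Type} [Field k] {M : Type} [MetricSpace M] [CompactSpace M]

/-- A Thom cochain of degree `n` near the diagonal. -/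
structure Tau (k : Type) [Field k] (M : Type) [MetricSpace M] (n : ℕ) (ρ₁ : ℝ) where
  f : List (M × M) → k
  nrm : Nrm f
  ε : ℝ
  hε : 0 < ε
  coc : Coc univ ε n f
  supp : ∀ l : List (M × M), (∃ p ∈ l, ρ₁ ≤ dist p.1 p.2) → f l = 0

/-- `(w, σ) ↦ (w σ, y)` -/
def evp (y : M) (p : (ℝ →ᵇ M) × ℝ) : M × M := (p.1 p.2, y)

/-- `(w, σ) ↦ w|[0, σ]` followed by the segment from `w σ` to `y`. -/
noncomputable def cutp (r : ℝ) (y : M) (p : (ℝ →ᵇ M) × ℝ) : ℝ →ᵇ M :=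
  splice r p.1 (cst y) p.2 0

/-- The modulus of continuity of the cutting, independent of the duration. -/
def CutMod (r : ℝ) (y : M) : Prop := ∀ ε > 0, ∃ δ > 0, ∀ w w' : ℝ →ᵇ M,
  Lip (w : ℝ → M) → Lip (w' : ℝ → M) → ∀ σ σ' : ℝ, dist (w σ) y ≤ r → dist (w' σ') y ≤ r →
    dist w w' < δ → |σ - σ'| < δ → dist (cutp r y (w, σ)) (cutp r y (w', σ')) < ε

/-- The integrand. -/
noncomputable def intg (n : ℕ) (τ : List (M × M) → k) (g : List (ℝ →ᵇ M) → k) (r : ℝ) (y : M) :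
    List ((ℝ →ᵇ M) × ℝ) → k :=
  cup n (fun l => τ (l.map (evp y))) (fun l => g (l.map (cutp r y)))

/-- One step of the recursion. -/
noncomputable def stp (n : ℕ) (τ : List (M × M) → k) (r δ : ℝ) (y : M)
    (g : List (ℝ →ᵇ M) → k) : List (ℝ →ᵇ M) → k :=
  fibI δ (intg n τ g r y)

/-- Pairs (path, time). -/
def PTm (a b : M) (T S : ℝ) : Set ((ℝ →ᵇ M) × ℝ) := {p | p.1 ∈ P a b T ∧ 0 ≤ p.2 ∧ p.2 ≤ S}

variable {n m : ℕ} {ρ₀ ρ₁ r δ : ℝ} {x₀ y y' : M} {T S : ℝ} {g : List (ℝ →ᵇ M) → k}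

theorem dist_ev_le {w w' : ℝ →ᵇ M} {σ σ' : ℝ} (hw : Lip (w : ℝ → M)) :
    dist (w σ) (w' σ') ≤ dist w w' + |σ - σ'| := by
  have h1 := hw σ σ'
  have h2 := BoundedContinuousFunction.dist_coe_le_dist (f := w) (g := w') σ'
  linarith [dist_triangle (w σ) (w σ') (w' σ')]

theorem dist_ev_lt {a b a' b' : M} {T T' S S' : ℝ} {p q : (ℝ →ᵇ M) × ℝ} (hp : p ∈ PTm a b T S)
    (_ : q ∈ PTm a' b' T' S') {η : ℝ} (h : dist p q < η) : dist (p.1 p.2) (q.1 q.2) < 2 * η := by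
  have h1 := dist_ev_le (σ := p.2) (σ' := q.2) (w' := q.1) hp.1.1
  have h2 : dist p.1 q.1 < η := (le_max_left _ _).trans_lt h
  have h3 : |p.2 - q.2| < η := (le_max_right _ _).trans_lt h
  linarith

theorem intg_zero (τ : Tau k M n ρ₁) {L : List ((ℝ →ᵇ M) × ℝ)} (hL : L ≠ [])
    (h : ∀ p ∈ L, ρ₁ ≤ dist (p.1 p.2) y) : intg n τ.f g r y L = 0 := by
  obtain ⟨p, L, rfl⟩ := List.exists_cons_of_ne_nil hL
  have : τ.f (((p :: L).take (n + 1)).map (evp y)) = 0 := by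
    refine τ.supp _ ⟨evp y p, ?_, h p List.mem_cons_self⟩
    rw [List.take_succ_cons, List.map_cons]
    exact List.mem_cons_self
  rw [intg, cup, this, zero_mul]

/-- **The integrand is closed**, and more generally the Leibniz rule for small lists. -/
theorem intg_leibniz (τ : Tau k M n ρ₁) {η : ℝ} (h2 : 2 * η ≤ τ.ε)
    {L : List ((ℝ →ᵇ M) × ℝ)} (hL : L.length = n + m + 2) (hf : Fine (PTm x₀ y' T S) η L) :
    dl (intg n τ.f g r y) L = (-1) ^ n * (τ.f ((L.take (n + 1)).map (evp y)) *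
      dl g ((L.drop n).map (cutp r y))) := by
  rw [intg, dl_cup _ _ _ _ (by omega)]
  have h1 : dl (fun l => τ.f (l.map (evp y))) (L.take (n + 2)) = 0 := by
    rw [dl_map τ.f (evp y)]
    refine τ.coc _ (by rw [List.length_map, List.length_take]; omega) ⟨fun _ _ => mem_univ _, ?_⟩
    intro a ha b hb
    obtain ⟨p, hp, rfl⟩ := List.mem_map.1 ha
    obtain ⟨q, hq, rfl⟩ := List.mem_map.1 hb
    have hp' := List.mem_of_mem_take hp
    have hq' := List.mem_of_mem_take hq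
    have h3 := dist_ev_lt (hf.1 p hp') (hf.1 q hq') (hf.2 p hp' q hq')
    have hd : dist (evp y p) (evp y q) = dist (p.1 p.2) (q.1 q.2) := by
      rw [evp, evp, Prod.dist_eq, dist_self, max_eq_left dist_nonneg]
    rw [hd]
    linarith
  rw [h1, zero_mul, zero_add, dl_map g (cutp r y)]

/-- If `τ` does not vanish, the cut paths are small. -/
theorem cut_fine (τ : Tau k M n ρ₁) (hseg : LS.UniqSeg M ρ₀) (hr : 0 < r) (hrρ : r < ρ₀)
    {ε : ℝ} {η : ℝ} (hη : 0 < η)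
    (hmod : ∀ w w' : ℝ →ᵇ M, Lip (w : ℝ → M) → Lip (w' : ℝ → M) → ∀ σ σ' : ℝ, dist (w σ) y ≤ r →
      dist (w' σ') y ≤ r → dist w w' < η → |σ - σ'| < η →
      dist (cutp r y (w, σ)) (cutp r y (w', σ')) < ε)
    (h3 : ρ₁ + 2 * η ≤ r) {L : List ((ℝ →ᵇ M) × ℝ)} (hf : Fine (PTm x₀ y' T S) η L)
    (hne : L ≠ []) (hτ : τ.f ((L.take (n + 1)).map (evp y)) ≠ 0) :
    Fine (P x₀ y (S + r)) ε ((L.drop n).map (cutp r y)) := by
  have key : ∀ p ∈ L, dist (p.1 p.2) y ≤ r := by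
    intro p hp
    obtain ⟨q, hq⟩ : ∃ q, q ∈ L.take (n + 1) := by
      obtain ⟨q, L, rfl⟩ := List.exists_cons_of_ne_nil hne
      exact ⟨q, by rw [List.take_succ_cons]; exact List.mem_cons_self⟩
    have h4 : dist (q.1 q.2) y < ρ₁ := by
      by_contra hcon
      exact hτ (τ.supp _ ⟨evp y q, List.mem_map_of_mem hq, not_lt.1 hcon⟩)
    have hq' := List.mem_of_mem_take hq
    have h5 := dist_ev_lt (hf.1 p hp) (hf.1 q hq') (hf.2 p hp q hq')
    linarith [dist_triangle (p.1 p.2) (q.1 q.2) y]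
  refine ⟨fun w hw => ?_, fun w hw w' hw' => ?_⟩
  · obtain ⟨p, hp, rfl⟩ := List.mem_map.1 hw
    have hp := List.mem_of_mem_drop hp
    have hm := splice_mem (a := x₀) (b := y) (t := 0) hseg hr hrρ (w := p.1) (w' := cst y)
      (σ := p.2) (τ := 0) (hf.1 p hp).1.1 (lip_cst y) (by rw [cst_apply]; exact key p hp)
      (hf.1 p hp).2.1 le_rfl (hf.1 p hp).1.2.1 (fun u _ => rfl)
    refine P_mono ?_ hm
    have := (hf.1 p hp).2.2
    linarith
  · obtain ⟨p, hp, rfl⟩ := List.mem_map.1 hw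
    obtain ⟨q, hq, rfl⟩ := List.mem_map.1 hw'
    have hp := List.mem_of_mem_drop hp
    have hq := List.mem_of_mem_drop hq
    have hd := hf.2 p hp q hq
    exact hmod p.1 q.1 (hf.1 p hp).1.1 (hf.1 q hq).1.1 p.2 q.2 (key p hp) (key q hq)
      ((le_max_left _ _).trans_lt hd) ((le_max_right _ _).trans_lt hd)

/-- The lists of the grid. -/
theorem fine_grid {l : List (ℝ →ᵇ M)} {η : ℝ} (hη : 0 < η) (hδ : δ < η) (hδ0 : 0 < δ) (hf : Fine (P x₀ y' T) η l)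
    {N : ℕ} {t : List ℝ} (ht : ∃ j < N, t = [(j : ℝ) * δ, ((j + 1 : ℕ) : ℝ) * δ])
    {L : List ((ℝ →ᵇ M) × ℝ)} (hL : Gr l t L) : Fine (PTm x₀ y' T (N * δ)) η L := by
  obtain ⟨j, hj, rfl⟩ := ht
  have hj' : ((j + 1 : ℕ) : ℝ) ≤ N := by exact_mod_cast hj
  have htm : ∀ s ∈ [(j : ℝ) * δ, ((j + 1 : ℕ) : ℝ) * δ], (j : ℝ) * δ ≤ s ∧ s ≤ (j : ℝ) * δ + δ := by
    intro s hs
    simp only [List.mem_cons, List.not_mem_nil, or_false] at hs
    rcases hs with rfl | rfl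
    · exact ⟨le_rfl, by linarith⟩
    · push_cast; constructor <;> nlinarith
  refine ⟨fun p hp => ⟨hf.1 p.1 (hL.2 p hp).1, ?_, ?_⟩, fun p hp q hq => ?_⟩
  · exact (by positivity : (0 : ℝ) ≤ j * δ).trans (htm _ (hL.2 p hp).2).1
  · refine (htm _ (hL.2 p hp).2).2.trans ?_
    have : ((j + 1 : ℕ) : ℝ) * δ ≤ N * δ := mul_le_mul_of_nonneg_right hj' hδ0.le
    push_cast at this
    linarith
  · rw [Prod.dist_eq]
    refine max_lt (hf.2 _ (hL.2 p hp).1 _ (hL.2 q hq).1) ?_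
    have h1 := htm _ (hL.2 p hp).2
    have h2 := htm _ (hL.2 q hq).2
    rw [Real.dist_eq, abs_lt]
    constructor <;> linarith

/-- The step is a finite fibre integral. -/
theorem stp_eq (τ : Tau k M n ρ₁) (hy : ρ₁ ≤ dist y' y) (hδ0 : 0 < δ) {N : ℕ}
    (hN : T ≤ N * δ) {l : List (ℝ →ᵇ M)} (hl : l ≠ []) (h : ∀ w ∈ l, w ∈ P x₀ y' T) :
    stp n τ.f r δ y g l = fib (mesh k δ N) (intg n τ.f g r y) l := by
  refine fibI_eq fun j hj => ?_
  refine fib_eq_zero (Q := fun t => t = [(j : ℝ) * δ, ((j + 1 : ℕ) : ℝ) * δ])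
    (single_mem (P := fun t => t = [(j : ℝ) * δ, ((j + 1 : ℕ) : ℝ) * δ]) rfl 1) ?_
  rintro t rfl L hL
  refine intg_zero τ ?_ fun p hp => ?_
  · have hpos := List.length_pos_iff.2 hl
    have hlen := hL.1
    rintro rfl
    simp only [List.length_nil, List.length_cons] at hlen
    omega
  · have hT : T ≤ p.2 := by
      have hjN : (N : ℝ) * δ ≤ j * δ := mul_le_mul_of_nonneg_right (by exact_mod_cast hj) hδ0.le
      have hs := (hL.2 p hp).2
      simp only [List.mem_cons, List.not_mem_nil, or_false] at hs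
      rcases hs with hs | hs
      · rw [hs]; linarith
      · rw [hs]; push_cast; nlinarith
    rw [eq_right (h p.1 (hL.2 p hp).1) hT]
    exact hy

theorem ends_zero (τ : Tau k M n ρ₁) (hy : ρ₁ ≤ dist y' y) (hx : ρ₁ ≤ dist x₀ y) {N : ℕ}
    (hN : T ≤ N * δ) {l : List (ℝ →ᵇ M)} (hl : l ≠ []) (h : ∀ w ∈ l, w ∈ P x₀ y' T)
    (g : List (ℝ →ᵇ M) → k) :
    intg n τ.f g r y (l.map fun a => (a, (N : ℝ) * δ)) = 0 ∧
      intg n τ.f g r y (l.map fun a => (a, (0 : ℝ))) = 0 := by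
  constructor
  · refine intg_zero τ (by simpa using hl) fun p hp => ?_
    obtain ⟨w, hw, rfl⟩ := List.mem_map.1 hp
    change ρ₁ ≤ dist (w (N * δ)) y
    rw [eq_right (h w hw) hN]
    exact hy
  · refine intg_zero τ (by simpa using hl) fun p hp => ?_
    obtain ⟨w, hw, rfl⟩ := List.mem_map.1 hp
    change ρ₁ ≤ dist (w 0) y
    rw [eq_left (h w hw) le_rfl]
    exact hx

/-- **The step maps cocycles to cocycles**, uniformly in the duration. -/
theorem stp_coc (τ : Tau k M n ρ₁) (hseg : LS.UniqSeg M ρ₀) (hr : 0 < r) (hrρ : r < ρ₀)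
    (h1r : ρ₁ < r) (hcm : CutMod r y) (hy : ρ₁ ≤ dist y' y) (hx : ρ₁ ≤ dist x₀ y) (hn : 1 ≤ n)
    {ε : ℝ} (hε : 0 < ε) (hg : ∀ T, Coc (P x₀ y T) ε m g) :
    ∃ η > 0, ∀ δ, 0 < δ → δ < η → ∀ T, Coc (P x₀ y' T) η (n + m - 1) (stp n τ.f r δ y g) := by
  obtain ⟨η₀, hη₀, hmod⟩ := hcm ε hε
  refine ⟨min η₀ (min (τ.ε / 2) ((r - ρ₁) / 2)), ?_, ?_⟩
  · have := τ.hε
    refine lt_min hη₀ (lt_min (by linarith) (by linarith))
  intro δ hδ0 hδ T l hl hf
  set η := min η₀ (min (τ.ε / 2) ((r - ρ₁) / 2)) with hη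
  have hηpos : 0 < η := hδ0.trans hδ
  have e1 : η ≤ η₀ := min_le_left _ _
  have e2 : 2 * η ≤ τ.ε := by
    have : η ≤ τ.ε / 2 := (min_le_right _ _).trans (min_le_left _ _)
    linarith
  have e3 : ρ₁ + 2 * η ≤ r := by
    have : η ≤ (r - ρ₁) / 2 := (min_le_right _ _).trans (min_le_right _ _)
    linarith
  obtain ⟨N, hN⟩ := exists_nat_gt (T / δ)
  have hN' : T ≤ N * δ := by rw [div_lt_iff₀ hδ0] at hN; exact hN.le
  have hne : l ≠ [] := by rintro rfl; simp at hl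
  rw [dl_congr (g := fib (mesh k δ N) (intg n τ.f g r y)) (fun l' h1 h2 =>
    stp_eq τ hy hδ0 hN' (by rintro rfl; simp at h1; omega) fun w hw => hf.1 w (h2 w hw))]
  obtain ⟨b1, b0⟩ := ends_zero (r := r) τ hy hx hN' hne hf.1 g
  rw [dl_fib_eq (mesh_Ln δ N) (bd_mesh δ N) _ hne b1 b0]
  refine fib_eq_zero (mesh_mem δ N) fun t ht L hL => ?_
  have hLf := fine_grid hηpos hδ hδ0 hf ht hL
  have hLl : L.length = n + m + 2 := by
    have := hL.1
    obtain ⟨j, _, rfl⟩ := ht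
    simp only [List.length_cons, List.length_nil] at this
    omega
  rw [intg_leibniz τ e2 hLl hLf]
  by_cases hτ : τ.f ((L.take (n + 1)).map (evp y)) = 0
  · rw [hτ]; ring
  · have hLne : L ≠ [] := by rintro rfl; simp at hLl
    have hc := cut_fine τ hseg hr hrρ hηpos (fun w w' h h' σ σ' a b c d =>
      hmod w w' h h' σ σ' a b (c.trans_le e1) (d.trans_le e1)) e3 hLf hLne hτ
    rw [hg _ _ (by rw [List.length_map, List.length_drop, hLl]; omega) hc]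
    ring

end Vale.Agent.P216.N929
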