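import Vale.Agent.P216.N929.Om2
import Vale.Agent.P216.N970.Det
import Vale.Agent.P216.H787.OmStep
import Vale.Agent.P216.H347.Tau3

/-!
# The fields of the interface `OmSys` (787) for the classes `om b j`
-/

open Finsupp Set BoundedContinuousFunction

namespace Vale.Agent.P216.N929

open Vale.Agent.P216.Sl Vale.Agent.P216.PS

variable {k : Type} [Field k] {M : Type} [MetricSpace M] [CompactSpace M] {n : ℕ} (G : Geo M n)
  (τ : Tau k M n G.ρ₁)

theorem om_zero_apply (b : Bool) (x : ℝ →ᵇ M) : om G τ b 0 [x] = 1 := rfl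

/-- Detection of `om b (j + 1)` by cycles, in terms of the integrand. -/
theorem om_det (b : Bool) (j : ℕ) {C : ℝ} {g : List (ℝ →ᵇ M) → k} (hC : 0 ≤ C)
    (hg : j * (n - 1) = 0 → g = fun _ => 0)
    (hne : ¬ ExL (P G.x₀ (G.y b) C) ((j + 1) * (n - 1)) (om G τ b (j + 1))) (δ : ℝ) (hδ : 0 < δ) :
    ∃ z : Ch k (ℝ →ᵇ M), z ∈ Sp k (fun l => l.length = (j + 1) * (n - 1) + 1 ∧
      SmL (P G.x₀ (G.y b) C) δ l) ∧ bd z = 0 ∧
      ∃ ι : Ch k ℝ, ι ∈ Sp k (fun l => l.length = 2 ∧ SmL (Icc 0 C) δ l) ∧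
        bd ι = single [C] 1 - single [0] 1 ∧
        ev (Sg.aL n τ.f (fun l => om G τ (!b) j l - dl g l) G.r (G.y (!b))) (sh z ι) = 1 := by
  have hn := G.hn
  have hd := deg_succ (n := n) j (by omega)
  have hm0 : (j + 1) * (n - 1) ≠ 0 := by
    have : 0 < (j + 1) * (n - 1) := Nat.mul_pos (by omega) (by omega)
    omega
  refine Sg.det_of (F := om G τ b (j + 1)) (b := j * (n - 1)) (by omega) hd hm0 τ.nrm τ.hε τ.coc hg
    hC hne ⟨omε G τ b (j + 1), omε_pos G τ b _, fun z hz hb ι hι hbι => ?_⟩ δ hδ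
  exact om_eval G τ b j hC le_rfl (omε_pos G τ b _) le_rfl
    ⟨hz, by rw [hb]; exact Submodule.zero_mem _⟩ ⟨hι, hbι⟩

omit [CompactSpace M] in
/-- The geometric data exist as soon as there are three points. -/
theorem exists_geo {ρ : ℝ} (hU : LS.UniqSeg M ρ) (hρ : 0 < ρ) {n : ℕ} (hn : 2 ≤ n) {x₀ a b : M}
    (h1 : x₀ ≠ a) (h2 : x₀ ≠ b) (h3 : a ≠ b) : ∃ G : Geo M n, G.x₀ = x₀ := by
  have d1 : 0 < dist x₀ a := dist_pos.2 h1
  have d2 : 0 < dist x₀ b := dist_pos.2 h2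
  have d3 : 0 < dist a b := dist_pos.2 h3
  have e0 : min (ρ / 4) (min (dist x₀ a) (min (dist x₀ b) (dist a b))) ≤ ρ / 4 := min_le_left _ _
  have e1 : min (ρ / 4) (min (dist x₀ a) (min (dist x₀ b) (dist a b))) ≤ dist x₀ a :=
    (min_le_right _ _).trans (min_le_left _ _)
  have e2 : min (ρ / 4) (min (dist x₀ a) (min (dist x₀ b) (dist a b))) ≤ dist x₀ b :=
    (min_le_right _ _).trans ((min_le_right _ _).trans (min_le_left _ _))
  have e3 : min (ρ / 4) (min (dist x₀ a) (min (dist x₀ b) (dist a b))) ≤ dist a b :=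
    (min_le_right _ _).trans ((min_le_right _ _).trans (min_le_right _ _))
  refine ⟨⟨ρ, min (ρ / 4) (min (dist x₀ a) (min (dist x₀ b) (dist a b))), ρ / 2, x₀,
    fun c => bif c then a else b, hU, by linarith, by linarith, by positivity, by linarith,
    ?_, ?_, hn⟩, rfl⟩
  · rintro (_ | _)
    · exact e2
    · exact e1
  · rintro (_ | _)
    · exact e3.trans (by rw [dist_comm]; exact le_rfl)
    · exact e3

/-- An exact normalised cocycle has a normalised primitive. -/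
theorem exists_nrm_prim {E : Type} [PseudoMetricSpace E] {X : Set E} {d : ℕ} {f : List E → k}
    (hN : Nrm f) (hc : CocL X d f) (he : ExL X d f) : ∃ g : List E → k, Nrm g ∧
      (d = 0 → ∀ l, g l = 0) ∧ ∃ ε > 0, ∀ l, l.length = d + 1 → SmL X ε l → f l = dl g l := by
  obtain ⟨g, hg0, ε₁, hε₁, hg⟩ := he
  obtain ⟨ε₂, hε₂, hf⟩ := hc
  rcases Nat.eq_zero_or_pos d with rfl | hd
  · refine ⟨fun _ => 0, fun _ _ => rfl, fun _ _ => rfl, ε₁, hε₁, fun l hl hs => ?_⟩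
    rw [hg l hl hs, show g = fun _ => 0 from funext (hg0 rfl)]
  · refine ⟨fun l => nrm g l - hmt f l, (nrm_Nrm g).sub hN.hmt, fun h => absurd h hd.ne',
      min ε₁ ε₂, lt_min hε₁ hε₂, fun l hl hs => ?_⟩
    have hs1 := hs.mono (Subset.refl X) (min_le_left ε₁ ε₂)
    have hs2 := hs.mono (Subset.refl X) (min_le_right ε₁ ε₂)
    have sub : ∀ {ε : ℝ}, SmL X ε l → ∀ l' : List E, (∀ x ∈ l', x ∈ l) → SmL X ε l' :=
      fun h l' h' => ⟨fun x hx => h.1 x (h' x hx), fun x hx y hy => h.2 x (h' x hx) y (h' y hy)⟩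
    have e1 : hmt (dl f) l = 0 := hmt_eq_zero fun l' h1 h2 =>
      hf l' (by omega) (sub hs2 l' h2)
    have e2 : nrm f l = nrm (dl g) l := nrm_congr fun l' h1 h2 =>
      hg l' (by omega) (sub hs1 l' h2)
    have e3 := nrm_sub f l
    have e4 : (fun l => nrm g l - hmt f l) = fun l => nrm g l + (-1) * hmt f l := by
      funext l; ring
    rw [e4, PS.dl_add, PS.dl_smul, dl_nrm, ← e2]
    rw [e1] at e3
    linear_combination -e3

/-- **The interface of 787.** -/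
noncomputable def omSys (hX : Cross) [SimplyConnectedSpace M] {N : ℕ} (hN : n = N + 1) {Ca : ℝ}
    (ℓ s : Bool → ℝ) (hℓ : ∀ b, 0 ≤ ℓ b) (hs : ∀ b, 0 ≤ s b) (hC : ∀ b, ℓ b + s b = Ca)
    (hv : ∀ b, ∃ v : ℝ →ᵇ M, v ∈ P (G.y (!b)) (G.y b) (ℓ b))
    (ha : ∀ b, ∃ ε₁ > 0, ∀ ε, 0 < ε → ε ≤ ε₁ → ∃ a : Ch k (ℝ →ᵇ M),
      Cy (P (G.y b) (G.y b) (s b)) ε (n - 1) a ∧ ∀ ι, Edge 0 (s b) ε ι →
        ev (fun l => τ.f (l.map (evp (G.y (!b))))) (sh a ι) = 1) :
    OmSys k M N G.r Ca G.x₀ τ.f where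
  e := G.y
  om := om G τ
  ne b h := by
    have := G.hx b
    rw [h, dist_self] at this
    exact absurd this (not_le.2 G.h1)
  nrm := om_nrm G τ
  coc b j T := by
    subst hN
    exact om_cocL G τ b j T
  zero _ _ := rfl
  i b j t ht h := by
    subst hN
    exact om_down G τ b j ht le_rfl h
  ii b j t ht h := by
    subst hN
    obtain ⟨v, hv⟩ := hv b
    have := om_up G τ hX b j ht (hℓ b) (hs b) hv (ha b) h
    rwa [add_assoc, hC b] at this
  prim b j T h := by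
    subst hN
    exact exists_nrm_prim (om_nrm G τ b j) (om_cocL G τ b j T) h
  det b j C g hC _ hg hne := by
    subst hN
    intro δ hδ
    exact om_det G τ b j hC (fun h => funext (hg h)) hne δ hδ

end Vale.Agent.P216.N929
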