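import Vale.Agent.P216.N929.Ctr
import Vale.Agent.P216.H787.Fib

/-!
# The classes `om b j` (block B35)

`om b (j + 1)` = fibre integral of `τ(w σ, y (!b)) ∪ om (!b) j (w|[0, σ] * segment to y (!b))`, a
normalised list cochain, cocycle of degree `(j + 1) * (n - 1)` on the small lists of
`P x₀ (y b) T`, at one scale for all durations `T`.
-/

open Finsupp Set BoundedContinuousFunction

namespace Vale.Agent.P216.N929

open Vale.Agent.P216.Sl Vale.Agent.P216.PS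

/-- The geometric data of the recursion (no field). -/
structure Geo (M : Type) [MetricSpace M] (n : ℕ) where
  ρ₀ : ℝ
  ρ₁ : ℝ
  r : ℝ
  x₀ : M
  y : Bool → M
  seg : LS.UniqSeg M ρ₀
  hr : 0 < r
  hrρ : r < ρ₀
  h1 : 0 < ρ₁
  h1r : ρ₁ < r
  hx : ∀ b, ρ₁ ≤ dist x₀ (y b)
  hy : ∀ b, ρ₁ ≤ dist (y b) (y (!b))
  hn : 2 ≤ n

variable {k : Type} [Field k] {M : Type} [MetricSpace M] [CompactSpace M]

theorem cutMod {ρ₀ r : ℝ} (h : LS.UniqSeg M ρ₀) (hr : 0 < r) (hrρ : r < ρ₀) (y : M) :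
    CutMod r y := fun _ hε => cut_unif h hr hrρ y hε

section

variable {n m : ℕ} {ρ₀ ρ₁ r δ : ℝ} {x₀ y y' : M} {T S ε η : ℝ} {g : List (ℝ →ᵇ M) → k}

/-- `η` is a good scale for a step. -/
structure Scl (τ : Tau k M n ρ₁) (r : ℝ) (y : M) (ε η : ℝ) : Prop where
  pos : 0 < η
  mod : ∀ w w' : ℝ →ᵇ M, Lip (w : ℝ → M) → Lip (w' : ℝ → M) → ∀ σ σ' : ℝ, dist (w σ) y ≤ r →
    dist (w' σ') y ≤ r → dist w w' < η → |σ - σ'| < η →
    dist (cutp r y (w, σ)) (cutp r y (w', σ')) < ε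
  h2 : 2 * η ≤ τ.ε
  h3 : ρ₁ + 4 * η ≤ r

theorem Scl.h3' {τ : Tau k M n ρ₁} (h : Scl τ r y ε η) : ρ₁ + 2 * η ≤ r := by
  linarith [h.h3, h.pos]

theorem exists_scl (τ : Tau k M n ρ₁) (h1r : ρ₁ < r) (hcm : CutMod r y) (hε : 0 < ε) :
    ∃ η, Scl τ r y ε η := by
  obtain ⟨η₀, hη₀, hmod⟩ := hcm ε hε
  have := τ.hε
  have e1 : min η₀ (min (τ.ε / 2) ((r - ρ₁) / 4)) ≤ η₀ := min_le_left _ _
  have e2 : min η₀ (min (τ.ε / 2) ((r - ρ₁) / 4)) ≤ τ.ε / 2 :=
    (min_le_right _ _).trans (min_le_left _ _)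
  have e3 : min η₀ (min (τ.ε / 2) ((r - ρ₁) / 4)) ≤ (r - ρ₁) / 4 :=
    (min_le_right _ _).trans (min_le_right _ _)
  exact ⟨min η₀ (min (τ.ε / 2) ((r - ρ₁) / 4)),
    lt_min hη₀ (lt_min (by linarith) (by linarith)),
    fun w w' h h' σ σ' a b c d => hmod w w' h h' σ σ' a b (c.trans_le e1) (d.trans_le e1),
    by linarith, by linarith⟩

theorem Scl.mono {τ : Tau k M n ρ₁} {η' : ℝ} (h : Scl τ r y ε η) (h0 : 0 < η') (h' : η' ≤ η) :
    Scl τ r y ε η' :=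
  ⟨h0, fun w w' a a' σ σ' b b' c d => h.mod w w' a a' σ σ' b b' (c.trans_le h') (d.trans_le h'),
    by linarith [h.h2], by linarith [h.h3]⟩

/-- The integrand of `g = g'` on small lists. -/
theorem intg_congr (τ : Tau k M n ρ₁) (hseg : LS.UniqSeg M ρ₀) (hr : 0 < r) (hrρ : r < ρ₀)
    (hs : Scl τ r y ε η) {g g' : List (ℝ →ᵇ M) → k}
    {L : List ((ℝ →ᵇ M) × ℝ)} (hf : Fine (PTm x₀ y' T S) η L) (hne : L ≠ [])
    (hg : ∀ l, l.length = L.length - n → Fine (P x₀ y (S + r)) ε l → g l = g' l) :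
    intg n τ.f g r y L = intg n τ.f g' r y L := by
  rw [intg, intg, cup, cup]
  by_cases hτ : τ.f ((L.take (n + 1)).map (evp y)) = 0
  · rw [hτ, zero_mul, zero_mul]
  · have hc := cut_fine τ hseg hr hrρ hs.pos hs.mod hs.h3' hf hne hτ
    rw [hg _ (by rw [List.length_map, List.length_drop]) hc]

/-- **The integrand is a cocycle.** -/
theorem intg_coc (τ : Tau k M n ρ₁) (hseg : LS.UniqSeg M ρ₀) (hr : 0 < r) (hrρ : r < ρ₀)
    (hs : Scl τ r y ε η) (hg : Coc (P x₀ y (S + r)) ε m g) :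
    Coc (PTm x₀ y' T S) η (n + m) (intg n τ.f g r y) := by
  intro L hL hf
  rw [intg_leibniz τ hs.h2 hL hf]
  by_cases hτ : τ.f ((L.take (n + 1)).map (evp y)) = 0
  · rw [hτ]; ring
  · have hLne : L ≠ [] := by rintro rfl; simp at hL
    have hc := cut_fine τ hseg hr hrρ hs.pos hs.mod hs.h3' hf hLne hτ
    rw [hg _ (by rw [List.length_map, List.length_drop, hL]; omega) hc]
    ring

/-- **The step maps cocycles to cocycles**, uniformly in the duration. -/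
theorem stp_coc' (τ : Tau k M n ρ₁) (hseg : LS.UniqSeg M ρ₀) (hr : 0 < r) (hrρ : r < ρ₀)
    (hs : Scl τ r y ε η) (hy : ρ₁ ≤ dist y' y) (hx : ρ₁ ≤ dist x₀ y) (hn : 1 ≤ n)
    (hg : ∀ T, Coc (P x₀ y T) ε m g) (hδ0 : 0 < δ) (hδ : δ < η) (T : ℝ) :
    Coc (P x₀ y' T) η (n + m - 1) (stp n τ.f r δ y g) := by
  intro l hl hf
  obtain ⟨N, hN⟩ := exists_nat_gt (T / δ)
  have hN' : T ≤ N * δ := by rw [div_lt_iff₀ hδ0] at hN; exact hN.le
  have hne : l ≠ [] := by rintro rfl; simp at hl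
  rw [dl_congr (g := fib (mesh k δ N) (intg n τ.f g r y)) (fun l' h1 h2 =>
    stp_eq τ hy hδ0 hN' (by rintro rfl; simp at h1; omega) fun w hw => hf.1 w (h2 w hw))]
  obtain ⟨b1, b0⟩ := ends_zero (r := r) τ hy hx hN' hne hf.1 g
  rw [dl_fib_eq (mesh_Ln δ N) (bd_mesh δ N) _ hne b1 b0]
  refine fib_eq_zero (mesh_mem δ N) fun t ht L hL => ?_
  refine intg_coc (T := T) (S := N * δ) τ hseg hr hrρ hs (hg _) L ?_
    (fine_grid hs.pos hδ hδ0 hf ht hL)
  have := hL.1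
  obtain ⟨j, _, rfl⟩ := ht
  simp only [List.length_cons, List.length_nil] at this
  omega

end

/-! ### The recursion -/

/-- A stage of the recursion. -/
structure Stage (k : Type) [Field k] {n : ℕ} (G : Geo M n) (b : Bool) (j : ℕ) where
  f : List (ℝ →ᵇ M) → k
  ε : ℝ
  hε : 0 < ε
  nrm : Nrm f
  coc : ∀ T, Coc (P G.x₀ (G.y b) T) ε (j * (n - 1)) f

theorem nrm_one1 {α : Type} : Nrm (one1 k α) := by
  intro l hl
  rw [one1, if_neg]
  intro h1
  obtain ⟨a, rfl⟩ := List.length_eq_one_iff.1 h1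
  exact hl (List.isChain_singleton a)

theorem coc_one1 {α : Type} [PseudoMetricSpace α] (X : Set α) (ε : ℝ) :
    Coc X ε 0 (one1 k α) := by
  intro l hl _
  obtain ⟨a, b, rfl⟩ := List.length_eq_two.1 hl
  rw [dl_cons, dl_cons, dl_nil]
  simp [one1]

theorem nrm_stp {n : ℕ} {ρ₁ r δ : ℝ} {y : M} (τ : Tau k M n ρ₁) {g : List (ℝ →ᵇ M) → k}
    (hg : Nrm g) : Nrm (stp n τ.f r δ y g) := by
  have h1 : Nrm (intg n τ.f g r y) := Nrm.cup n (τ.nrm.map _) (hg.map _)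
  intro l hl
  have h2 : ∀ j : ℕ, fib (edge k δ j) (intg n τ.f g r y) l = 0 :=
    fun j => Sl.Nrm.fib h1 (edge k δ j) l hl
  rw [stp, fibI, finsum_congr h2, finsum_zero]

/-- The recursion. -/
noncomputable def stg {n : ℕ} (G : Geo M n) (τ : Tau k M n G.ρ₁) : ∀ (j : ℕ) (b : Bool),
    Stage k G b j
  | 0, _ => ⟨one1 k _, 1, one_pos, nrm_one1, fun T => by
      rw [Nat.zero_mul]; exact coc_one1 _ _⟩
  | j + 1, b =>
    let s := stg G τ j (!b)
    let h := exists_scl (y := G.y (!b)) τ G.h1r (cutMod G.seg G.hr G.hrρ _) s.hε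
    ⟨stp n τ.f G.r (h.choose / 2) (G.y (!b)) s.f, h.choose, h.choose_spec.pos, nrm_stp τ s.nrm,
      fun T => by
        have h1 := stp_coc' (y' := G.y b) τ G.seg G.hr G.hrρ h.choose_spec (G.hy b) (G.hx _)
          (by have := G.hn; omega) s.coc (δ := h.choose / 2) (half_pos h.choose_spec.pos)
          (half_lt_self h.choose_spec.pos) T
        have e : n + j * (n - 1) - 1 = (j + 1) * (n - 1) := by
          have := G.hn
          rw [Nat.add_mul, Nat.one_mul]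
          omega
        rwa [e] at h1⟩

section

variable {n : ℕ} (G : Geo M n) (τ : Tau k M n G.ρ₁)

/-- **The classes.** -/
noncomputable def om (b : Bool) (j : ℕ) : List (ℝ →ᵇ M) → k := (stg G τ j b).f

/-- The scale. -/
noncomputable def omε (b : Bool) (j : ℕ) : ℝ := (stg G τ j b).ε

theorem omε_pos (b : Bool) (j : ℕ) : 0 < omε G τ b j := (stg G τ j b).hε

theorem om_nrm (b : Bool) (j : ℕ) : Nrm (om G τ b j) := (stg G τ j b).nrm

theorem om_coc (b : Bool) (j : ℕ) (T : ℝ) :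
    Coc (P G.x₀ (G.y b) T) (omε G τ b j) (j * (n - 1)) (om G τ b j) := (stg G τ j b).coc T

theorem om_zero (b : Bool) : om G τ b 0 = one1 k _ := rfl

theorem om_succ (b : Bool) (j : ℕ) : om G τ b (j + 1) =
    stp n τ.f G.r (omε G τ b (j + 1) / 2) (G.y (!b)) (om G τ (!b) j) := rfl

theorem om_scl (b : Bool) (j : ℕ) :
    Scl τ G.r (G.y (!b)) (omε G τ (!b) j) (omε G τ b (j + 1)) :=
  (exists_scl (y := G.y (!b)) τ G.h1r (cutMod G.seg G.hr G.hrρ _) (stg G τ j (!b)).hε).choose_spec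

end

end Vale.Agent.P216.N929
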