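import Vale.Agent.P216.N929.Gen
import Vale.Agent.P216.H347.Cross

/-!
# P216-C: the cap formula (E1)

`u` = a cycle of degree `D` of paths from `p` to `q'`; `A` = the cap product of `τ(u σ, p)` with
`u × [0, T]`, pushed by the cutting `(w, σ) ↦ w|[0, σ] * segment to p`: a cycle of degree
`e = D + 1 - n` of loops at `p`. The fibre integral `∫ τ ∪ g` on `z · u` is `± ⟨g, z · A⟩`.
-/

open Finsupp Set BoundedContinuousFunction

namespace Vale.Agent.P216.N929

open Vale.Agent.P216.Sl Vale.Agent.P216.PS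

section

variable {k : Type} [Field k] {α β : Type}

/-- The cap product with a list cochain `f` of degree `n` (front face). -/
noncomputable def cap (n : ℕ) (f : List α → k) : Ch k α →ₗ[k] Ch k α :=
  Finsupp.linearCombination k fun l => single (l.drop n) (f (l.take (n + 1)))

theorem cap_single (n : ℕ) (f : List α → k) (l : List α) :
    cap n f (single l 1) = single (l.drop n) (f (l.take (n + 1))) := by
  rw [cap, Finsupp.linearCombination_single, one_smul]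

theorem ev_cap (n : ℕ) (f g : List α → k) (c : Ch k α) :
    ev g (cap n f c) = ev (cup n f g) c := by
  have := lin_ext_apply (f := (ev g).comp (cap n f)) (g := ev (cup n f g))
    (fun l => by rw [LinearMap.comp_apply, cap_single, ev_single, ev_single, one_mul, cup]) c
  simpa using this

/-- List functions separate chains. -/
theorem ch_ext {c c' : Ch k α} (h : ∀ g : List α → k, ev g c = ev g c') : c = c' := by
  classical
  ext l
  have key : ∀ c : Ch k α, ev (fun l' => if l' = l then 1 else 0) c = c l := by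
    intro c
    have := lin_ext_apply (f := ev (fun l' => if l' = l then (1 : k) else 0))
      (g := Finsupp.lapply l) (fun l' => by
        rw [ev_single, one_mul, Finsupp.lapply_apply, Finsupp.single_apply]) c
    simpa using this
  rw [← key c, ← key c', h]

/-- The boundary of a cap product with a cocycle. -/
theorem bd_cap (n : ℕ) (f : List α → k) {c : Ch k α}
    (hc : c ∈ Sp k (fun l => n + 2 ≤ l.length ∧ dl f (l.take (n + 2)) = 0)) :
    bd (cap n f c) = (-1 : k) ^ n • cap n f (bd c) := by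
  refine ch_ext fun g => ?_
  rw [← ev_dl, ev_cap, map_smul, ev_cap, ← ev_dl, smul_eq_mul, ← ev_smul_fun]
  refine ev_congr (fun l hl => ?_) hc
  rw [dl_cup n f g l hl.1, hl.2, zero_mul, zero_add, ← mul_assoc, ← pow_add, ← two_mul, pow_mul,
    neg_one_sq, one_pow, one_mul]
  rfl

theorem cap_mem (n : ℕ) (f : List α → k) {P Q : List α → Prop} {c : Ch k α} (hc : c ∈ Sp k P)
    (h : ∀ l, P l → f (l.take (n + 1)) ≠ 0 → Q (l.drop n)) : cap n f c ∈ Sp k Q := by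
  refine map_mem _ (fun l hl => ?_) hc
  rw [cap_single]
  by_cases h0 : f (l.take (n + 1)) = 0
  · rw [h0, single_zero]
    exact Submodule.zero_mem _
  · exact single_mem (h l hl h0) _

theorem cap_zero_of (n : ℕ) (f : List α → k) {P : List α → Prop} {c : Ch k α} (hc : c ∈ Sp k P)
    (h : ∀ l, P l → f (l.take (n + 1)) = 0) : cap n f c = 0 := by
  have := eq_of_mem (F := cap n f) (G := 0) (fun l hl => by
    rw [cap_single, h l hl, single_zero, LinearMap.zero_apply]) hc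
  simpa using this

/-- The front formula for chains: `τ` on the second factor. -/
theorem front_right' {f : List β → k} (hf : Nrm f) (g : List (α × β) → k) (n : ℕ) {p q : ℕ}
    (hq : n + 1 ≤ q) {z : Ch k α} (hz : z ∈ Sp k (Ln (p + 1))) {c : Ch k β} (hc : c ∈ Sp k (Ln q)) :
    ev (fun l => f ((l.take (n + 1)).map Prod.snd) * g (l.drop n)) (sh z c) =
      (-1) ^ ((p + 1 + 1) * n) * ev g (sh z (cap n f c)) := by
  have h1 : ∀ s : List α, s.length = p + 1 → ∀ t : List β, t.length = q →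
      ev (fun l => f ((l.take (n + 1)).map Prod.snd) * g (l.drop n)) (Sh s t) =
        (-1 : k) ^ ((p + 1 + 1) * n) * ev g (sh (single s 1) (cap n f (single t 1))) := by
    intro s hs t ht
    rw [front_right hf g n s t (by omega) (by rintro rfl; simp at hs)
      (by rintro rfl; simp at ht; omega), if_pos (by omega), hs, cap_single]
    have e1 : (single (t.drop n) (f (t.take (n + 1))) : Ch k β) =
        f (t.take (n + 1)) • single (t.drop n) 1 := by
      rw [Finsupp.smul_single, smul_eq_mul, mul_one]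
    rw [e1, map_smul, map_smul, sh_single, smul_eq_mul]
  have h2 : ∀ s : List α, s.length = p + 1 →
      ev (fun l => f ((l.take (n + 1)).map Prod.snd) * g (l.drop n)) (sh (single s 1) c) =
        (-1 : k) ^ ((p + 1 + 1) * n) * ev g (sh (single s 1) (cap n f c)) := by
    intro s hs
    have := eq_of_mem (P := Ln q)
      (F := ev (fun l => f ((l.take (n + 1)).map Prod.snd) * g (l.drop n)) ∘ₗ
        (sh (k := k) (single s 1)))
      (G := (-1 : k) ^ ((p + 1 + 1) * n) • (ev g ∘ₗ (sh (k := k) (single s 1)) ∘ₗ cap n f))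
      (fun t ht => by
        rw [LinearMap.comp_apply, sh_single, h1 s hs t ht]
        rfl) hc
    exact this
  have := eq_of_mem (P := Ln (p + 1))
    (F := ev (fun l => f ((l.take (n + 1)).map Prod.snd) * g (l.drop n)) ∘ₗ
      (sh (k := k) (α := α) (β := β)).flip c)
    (G := (-1 : k) ^ ((p + 1 + 1) * n) • (ev g ∘ₗ
      (sh (k := k) (α := α) (β := β)).flip (cap n f c)))
    (fun s hs => by
      rw [LinearMap.comp_apply, LinearMap.flip_apply, h2 s hs]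
      rfl) hz
  exact this

end

variable {M : Type} [MetricSpace M] [CompactSpace M] {k : Type} [Field k]

/-- Concatenation of pairs at time `c`. -/
noncomputable def ctc (c : ℝ) (x : (ℝ →ᵇ M) × (ℝ →ᵇ M)) : ℝ →ᵇ M := cat c x.1 x.2

/-- The part before the junction does not contribute. -/
theorem ctc_part1 {x₀ p q' : M} {c s r : ℝ} {τ : List (M × M) → k} (hτ : Nrm τ)
    {g : List (ℝ →ᵇ M) → k} (hg : Nrm g) {n m j : ℕ} (hj : 2 ≤ j) (hr : 0 < r)
    {z a : Ch k (ℝ →ᵇ M)}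
    (hz : z ∈ Sp k (fun l => l.length = m ∧ ∀ w ∈ l, w ∈ P x₀ p c))
    (ha : a ∈ Sp k (fun l => l.length = j ∧ ∀ w ∈ l, w ∈ P p q' s)) {ι : Ch k ℝ}
    (hι : ι ∈ Sp k (fun l => ∀ x ∈ l, x ≤ c)) (y : M) :
    ev (intg n τ g r y) (sh (mp (ctc c) (sh z a)) ι) = 0 := by
  have e1 := sh_mp (k := k) (ctc (M := M) c) (id : ℝ → ℝ) (sh z a) ι
  rw [Tau.mp_id] at e1
  rw [e1, ev_mp]
  set F₁ : List ((ℝ →ᵇ M) × ℝ) → k := intg n τ g r y with hF₁
  have hN : Nrm F₁ := fun l hl => Nrm.cup n (hτ.map (evp y)) (hg.map (cutp r y)) l hl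
  have e2 : ev (fun L : List (((ℝ →ᵇ M) × (ℝ →ᵇ M)) × ℝ) => F₁ (L.map (Prod.map
      (ctc c) id))) (sh (sh z a) ι) =
      ev (fun L => F₁ (L.map (Prod.map Prod.fst id))) (sh (sh z a) ι) := by
    refine ev_congr (P := fun L => ∀ x ∈ L, (x.1.1 ∈ P x₀ p c ∧ x.1.2 ∈ P p q' s) ∧
      x.2 ≤ c) (fun L hL => ?_) ?_
    · refine Crs.intg_congr τ g r y fun x hx => ?_
      obtain ⟨⟨h1, h2⟩, h3⟩ := hL x hx
      have h4 : ∀ u ≤ c, cat c x.1.1 x.1.2 u = x.1.1 u := fun u hu => by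
        rw [cat_apply h1.1 h2.1 (by rw [eq_right h1 le_rfl, eq_left h2 le_rfl]), catf_left hu]
      refine ⟨?_, ?_⟩
      · change (cat c x.1.1 x.1.2 x.2, y) = (x.1.1 x.2, y)
        rw [h4 _ h3]
      · change splice r (cat c x.1.1 x.1.2) (cst y) x.2 0 = splice r x.1.1 (cst y) x.2 0
        refine splice_congr fun u => ?_
        rcases le_total u x.2 with h0 | h0
        · rw [spl_left h0, spl_left h0]
          exact h4 _ (h0.trans h3)
        rcases le_total u (x.2 + r) with h5 | h5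
        · rw [spl_mid h0 h5, spl_mid h0 h5]
          simp only [h4 _ h3]
        · rw [spl_right hr h5, spl_right hr h5]
    · refine sh_mem (P := fun L => ∀ x ∈ L, x.1 ∈ P x₀ p c ∧ x.2 ∈ P p q' s)
        (fun S T L hS hT hL x hx => ⟨hS _ (hL.2 x hx).1, hT _ (hL.2 x hx).2⟩) ?_ hι
      exact sh_mem (fun S T L hS hT hL x hx => ⟨hS.2 _ (hL.2 x hx).1, hT.2 _ (hL.2 x hx).2⟩) hz ha
  have e3 := sh_mp (k := k) (Prod.fst : (ℝ →ᵇ M) × (ℝ →ᵇ M) → (ℝ →ᵇ M)) (id : ℝ → ℝ) (sh z a) ι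
  rw [Tau.mp_id] at e3
  rw [e2, ← ev_mp F₁ (Prod.map Prod.fst id), ← e3, ← Sl.ev_fib, ev_mp]
  exact Crs.ev_fst_zero (Nrm.fib hN ι) (Sp_mono (fun l hl => hl.1) hz)
    (Sp_mono (fun l hl => hl.1) ha) hj

variable {n D e m : ℕ} {ρ₀ ρ₁ r ε η T : ℝ} {x₀ p q' : M}

/-- The cap cycle. -/
noncomputable def capA (n : ℕ) (τ : List (M × M) → k) (r : ℝ) (p : M) (u : Ch k (ℝ →ᵇ M))
    (ι : Ch k ℝ) : Ch k (ℝ →ᵇ M) :=
  mp (cutp r p) (cap n (fun l => τ (l.map (evp p))) (sh u ι))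

/-- Evaluation on the cap cycle. -/
theorem ev_capA (τ : List (M × M) → k) (g : List (ℝ →ᵇ M) → k) (u : Ch k (ℝ →ᵇ M))
    (ι : Ch k ℝ) : ev (intg n τ g r p) (sh u ι) = ev g (capA n τ r p u ι) := by
  rw [capA, ev_mp, ev_cap]
  rfl

omit [CompactSpace M] in
/-- The lists of `u × ι`. -/
theorem sh_PTm {u : Ch k (ℝ →ᵇ M)} (hu : Cy (P p q' T) η D u) {ι : Ch k ℝ} (hι : Edge 0 T η ι) :
    sh u ι ∈ Sp k (fun L => L.length = D + 2 ∧ Fine (PTm p q' T T) η L) := by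
  refine sh_mem (fun S t L hS hT hL => ⟨?_, fun x hx => ?_, fun x hx x' hx' => ?_⟩) hu.1 hι.1
  · have := hL.1
    have := hS.1
    have := hT.1
    omega
  · exact ⟨hS.2.1 _ (hL.2 x hx).1, (hT.2.1 _ (hL.2 x hx).2).1, (hT.2.1 _ (hL.2 x hx).2).2⟩
  · rw [Prod.dist_eq]
    exact max_lt (hS.2.2 _ (hL.2 x hx).1 _ (hL.2 x' hx').1)
      (hT.2.2 _ (hL.2 x hx).2 _ (hL.2 x' hx').2)

/-- **The cap cycle is a cycle.** -/
theorem bd_capA (τ : Tau k M n ρ₁) (h2 : 2 * η ≤ τ.ε) (hn : 1 ≤ n) (hD : D + 1 = n + e)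
    (he : 1 ≤ e) {u : Ch k (ℝ →ᵇ M)} (hu : Cy (P p q' T) η D u) {ι : Ch k ℝ}
    (hι : Edge 0 T η ι) : bd (capA n τ.f r p u ι) = 0 := by
  have h0 : bd (sh u ι) = (-1 : k) ^ D • (mp (fun w => (w, T)) u - mp (fun w => (w, (0 : ℝ))) u) := by
    rw [bd_sh (p := D) (q := 1) (by omega) (Sp_mono (fun l hl => hl.1) hu.1)
      (Sp_mono (fun l hl => hl.1) hι.1), bd_eq_zero hu (by omega), hι.2, map_sub]
    have hN : u ∈ Sp k Ne := Sp_mono (fun l hl => by
      have := hl.1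
      change l ≠ []
      rintro rfl
      simp at this) hu.1
    rw [sh_point_right T hN, sh_point_right 0 hN]
    simp
  rw [capA, bd_mp, bd_cap]
  · have h3 : ∀ t : ℝ, (∀ w ∈ P p q' T, ∀ w' ∈ P p q' T, (w t : M) = w' t) →
        cap n (fun l : List ((ℝ →ᵇ M) × ℝ) => τ.f (l.map (evp p))) (mp (fun w => (w, t)) u) = 0 := by
      intro t ht
      have hm : mp (fun w : ℝ →ᵇ M => (w, t)) u ∈ Sp k (fun L => L.length = D + 1 ∧
          ∀ x ∈ L, ∀ x' ∈ L, evp p x = evp p x') := by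
        refine map_mem _ (fun l hl => ?_) hu.1
        rw [mp_single]
        refine single_mem ⟨by rw [List.length_map, hl.1], fun x hx x' hx' => ?_⟩ _
        obtain ⟨w, hw, rfl⟩ := List.mem_map.1 hx
        obtain ⟨w', hw', rfl⟩ := List.mem_map.1 hx'
        exact congrArg (fun a => (a, p)) (ht w (hl.2.1 w hw) w' (hl.2.1 w' hw'))
      refine cap_zero_of _ _ hm fun L hL => ?_
      refine τ.nrm _ fun hch => ?_
      obtain ⟨x, y, L', rfl⟩ : ∃ x y L', L = x :: y :: L' := by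
        rcases L with _ | ⟨x, _ | ⟨y, L'⟩⟩
        · have := hL.1; simp at this
        · have := hL.1; simp only [List.length_cons, List.length_nil] at this; omega
        · exact ⟨x, y, L', rfl⟩
      obtain ⟨n', rfl⟩ : ∃ n', n = n' + 1 := ⟨n - 1, by omega⟩
      rw [List.take_succ_cons, List.take_succ_cons, List.map_cons, List.map_cons,
        List.isChain_cons_cons] at hch
      exact hch.1 (hL.2 x (by simp) y (by simp))
    rw [h0, map_smul, map_smul, map_sub, h3 T fun w hw w' hw' => by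
        rw [eq_right hw le_rfl, eq_right hw' le_rfl],
      h3 0 fun w hw w' hw' => by rw [eq_left hw le_rfl, eq_left hw' le_rfl]]
    simp
  · refine Sp_mono (fun L hL => ⟨by have := hL.1; omega, ?_⟩) (sh_PTm hu hι)
    rw [dl_map τ.f (evp p)]
    refine τ.coc _ (by rw [List.length_map, List.length_take]; have := hL.1; omega)
      ⟨fun _ _ => mem_univ _, ?_⟩
    intro a ha b hb
    obtain ⟨x, hx, rfl⟩ := List.mem_map.1 ha
    obtain ⟨x', hx', rfl⟩ := List.mem_map.1 hb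
    have hx := List.mem_of_mem_take hx
    have hx' := List.mem_of_mem_take hx'
    have h3 := dist_ev_lt (hL.2.1 x hx) (hL.2.1 x' hx') (hL.2.2 x hx x' hx')
    have hd : dist (evp p x) (evp p x') = dist (x.1 x.2) (x'.1 x'.2) := by
      rw [evp, evp, Prod.dist_eq, dist_self, max_eq_left dist_nonneg]
    rw [hd]
    linarith

theorem cy_capA (τ : Tau k M n ρ₁) (hseg : LS.UniqSeg M ρ₀) (hr : 0 < r) (hrρ : r < ρ₀)
    (hs : Scl τ r p ε η) (hn : 1 ≤ n) (hD : D + 1 = n + e) (he : 1 ≤ e) {u : Ch k (ℝ →ᵇ M)}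
    (hu : Cy (P p q' T) η D u) {ι : Ch k ℝ} (hι : Edge 0 T η ι) :
    Cy (P p p (T + r)) ε e (capA n τ.f r p u ι) := by
  refine ⟨?_, by rw [bd_capA τ hs.h2 hn hD he hu hι]; exact Submodule.zero_mem _⟩
  have h1 : cap n (fun l : List ((ℝ →ᵇ M) × ℝ) => τ.f (l.map (evp p))) (sh u ι) ∈
      Sp k (fun L => L.length = e + 1 ∧ Fine (P p p (T + r)) ε (L.map (cutp r p))) := by
    refine cap_mem _ _ (sh_PTm hu hι) fun L hL hτ => ⟨?_, ?_⟩
    · rw [List.length_drop, hL.1]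
      omega
    · exact cut_fine τ hseg hr hrρ hs.pos hs.mod hs.h3' hL.2
        (by have := hL.1; rintro rfl; simp at this) hτ
  refine map_mem _ (fun L hL => ?_) h1
  rw [mp_single]
  exact single_mem ⟨by rw [List.length_map, hL.1], hL.2⟩ _

/-- **The cap formula (E1).** -/
theorem capA_ctc (τ : Tau k M n ρ₁) (hseg : LS.UniqSeg M ρ₀) (hr : 0 < r) (hrρ : r < ρ₀)
    (h3 : ρ₁ + 2 * η ≤ r) (hD : D + 1 = n + e) (hT : 0 ≤ T) {u : Ch k (ℝ →ᵇ M)}
    (hu : Cy (P p q' T) η D u) {ι : Ch k ℝ} (hι : Edge 0 T η ι) {c : ℝ} (hc : 0 ≤ c)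
    {z : Ch k (ℝ →ᵇ M)} (hz : z ∈ Sp k (fun l => l.length = m + 1 ∧ ∀ w ∈ l, w ∈ P x₀ p c))
    {g : List (ℝ →ᵇ M) → k} (hg : Nrm g) (hD1 : 1 ≤ D) {ι₁ : Ch k ℝ}
    (hι₁ : ι₁ ∈ Sp k (fun l => ∀ x ∈ l, x ≤ c)) :
    ev (intg n τ.f g r p) (sh (mp (ctc c) (sh z u)) (ι₁ + mp (fun t => t + c) ι)) =
      (-1) ^ ((m + 1 + 1) * n) * ev g (mp (ctc c) (sh z (capA n τ.f r p u ι))) := by
  have hu' : u ∈ Sp k (fun l => l.length = D + 1 ∧ ∀ w ∈ l, w ∈ P p q' T) :=
    Sp_mono (fun l hl => ⟨hl.1, hl.2.1⟩) hu.1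
  rw [map_add, map_add, ctc_part1 τ.nrm hg (by omega) hr hz hu' hι₁ p, zero_add, sh_mp, ev_mp]
  set A : (ℝ →ᵇ M) × ((ℝ →ᵇ M) × ℝ) → (ℝ →ᵇ M) × ℝ := fun x => (cat c x.1 x.2.1, x.2.2 + c)
    with hA
  set τ' : List ((ℝ →ᵇ M) × ℝ) → k := fun L => τ.f (L.map (evp p)) with hτ'
  have hN : Nrm τ' := τ.nrm.map (evp p)
  set G : List ((ℝ →ᵇ M) × ((ℝ →ᵇ M) × ℝ)) → k := fun L => g (L.map fun x => cutp r p (A x))
    with hG
  have e1 : ev (fun L : List (((ℝ →ᵇ M) × (ℝ →ᵇ M)) × ℝ) => intg n τ.f g r p (L.map (Prod.map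
      (ctc c) fun t => t + c))) (sh (sh z u) ι) = ev (fun L => intg n τ.f g r p (L.map A))
      (sh z (sh u ι)) := by
    rw [ev_sh_assoc]
    refine ev_congr (P := fun _ => True) (fun L _ => ?_) (by simp [Finsupp.mem_supported])
    rw [List.map_map]
    rfl
  rw [e1]
  have ht := sh_PTm hu hι
  have e2 : ev (fun L => intg n τ.f g r p (L.map A)) (sh z (sh u ι)) =
      ev (fun L => τ' ((L.take (n + 1)).map Prod.snd) * G (L.drop n)) (sh z (sh u ι)) := by
    refine ev_congr (P := fun L => ∀ x ∈ L, x.1 ∈ P x₀ p c ∧ x.2.1 ∈ P p q' T ∧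
      x.2.2 ∈ Icc 0 T) (fun L hL => ?_) ?_
    · rw [intg, N929.cup, ← List.map_take, ← List.map_drop, List.map_map, List.map_map, hτ', hG]
      simp only [List.map_map]
      congr 2
      refine List.map_congr_left fun x hx => ?_
      obtain ⟨h1, h2, h3⟩ := hL x (List.mem_of_mem_take hx)
      change (cat c x.1 x.2.1 (x.2.2 + c), p) = (x.2.1 x.2.2, p)
      have h4 : x.1 c = x.2.1 0 := by rw [eq_right h1 le_rfl, eq_left h2 le_rfl]
      rw [cat_apply h1.1 h2.1 h4, catf_right h4 (by linarith [h3.1]), add_sub_cancel_right]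
    · exact sh_mem (fun S t L hS hT hL x hx => ⟨hS.2 _ (hL.2 x hx).1,
        (hT.2.1 _ (hL.2 x hx).2).1, (hT.2.1 _ (hL.2 x hx).2).2⟩) hz ht
  rw [e2, front_right' hN G n (p := m) (q := D + 2) (by omega) (Sp_mono (fun l hl => hl.1) hz)
    (Sp_mono (fun l hl => hl.1) ht)]
  congr 1
  rw [capA]
  have e3 := sh_mp (k := k) (id : (ℝ →ᵇ M) → (ℝ →ᵇ M)) (cutp r p) z (cap n τ' (sh u ι))
  rw [Tau.mp_id] at e3
  rw [e3, ev_mp, ev_mp]
  have hcap : cap n τ' (sh u ι) ∈ Sp k (fun L => ∀ x ∈ L, x.1 ∈ P p q' T ∧ x.2 ∈ Icc 0 T ∧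
      dist (x.1 x.2) p ≤ r) := by
    refine cap_mem _ _ ht fun L hL hτ x hx => ?_
    have hx := List.mem_of_mem_drop hx
    refine ⟨(hL.2.1 x hx).1, ⟨(hL.2.1 x hx).2.1, (hL.2.1 x hx).2.2⟩, ?_⟩
    obtain ⟨y, hy⟩ : ∃ y, y ∈ L.take (n + 1) := by
      obtain ⟨y, L, rfl⟩ := List.exists_cons_of_ne_nil (l := L)
        (by have := hL.1; rintro rfl; simp at this)
      exact ⟨y, by rw [List.take_succ_cons]; exact List.mem_cons_self⟩
    have h4 : dist (y.1 y.2) p < ρ₁ := by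
      by_contra hcon
      exact hτ (τ.supp _ ⟨evp p y, List.mem_map_of_mem hy, not_lt.1 hcon⟩)
    have hy' := List.mem_of_mem_take hy
    have h5 := dist_ev_lt (hL.2.1 x hx) (hL.2.1 y hy') (hL.2.2 x hx y hy')
    linarith [dist_triangle (x.1 x.2) (y.1 y.2) p]
  refine ev_congr (P := fun L => ∀ x ∈ L, x.1 ∈ P x₀ p c ∧ x.2.1 ∈ P p q' T ∧
      x.2.2 ∈ Icc 0 T ∧ dist (x.2.1 x.2.2) p ≤ r) (fun L hL => ?_) ?_
  · rw [hG, List.map_map]
    refine congrArg g (List.map_congr_left fun x hx => ?_)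
    obtain ⟨h1, h2, h4, h5⟩ := hL x hx
    change cutp r p (cat c x.1 x.2.1, x.2.2 + c) = cat c x.1 (cutp r p (x.2.1, x.2.2))
    have := Crs.splice_cat (y := p) hseg hr hrρ hc hT h1 h2 h4.1 h5
    rw [cutp, add_comm x.2.2 c]
    exact this
  · exact sh_mem (fun S t L hS hT hL x hx => ⟨hS.2 _ (hL.2 x hx).1, hT _ (hL.2 x hx).2⟩) hz hcap

/-! ### The cycles `z · u` and `v · Y` -/

/-- `z · u` is a cycle. -/
theorem cy_ctc {c : ℝ} {j : ℕ} (hj : 1 ≤ j) (hc : 0 ≤ c) (hT : 0 ≤ T) {z u : Ch k (ℝ →ᵇ M)}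
    (hz : Cy (P x₀ p c) η m z) (hu : Cy (P p q' T) η j u) :
    Cy (P x₀ q' (c + T)) η (m + j) (mp (ctc c) (sh z u)) := by
  refine ⟨?_, by rw [bd_mp, Crs.bd_zero_sh hj hz hu, map_zero]; exact Submodule.zero_mem _⟩
  have h1 : sh z u ∈ Sp k (fun L => L.length = m + j + 1 ∧ (∀ x ∈ L, x.1 ∈ P x₀ p c ∧
      x.2 ∈ P p q' T) ∧ ∀ x ∈ L, ∀ y ∈ L, dist x.1 y.1 < η ∧ dist x.2 y.2 < η) := by
    refine sh_mem (fun S T L hS hT hL => ⟨?_, fun x hx => ⟨hS.2.1 _ (hL.2 x hx).1,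
      hT.2.1 _ (hL.2 x hx).2⟩, fun x hx y hy => ⟨hS.2.2 _ (hL.2 x hx).1 _ (hL.2 y hy).1,
      hT.2.2 _ (hL.2 x hx).2 _ (hL.2 y hy).2⟩⟩) hz.1 hu.1
    have e1 := hL.1
    have e2 := hS.1
    have e3 := hT.1
    omega
  refine map_mem _ (fun L hL => ?_) h1
  rw [mp_single]
  refine single_mem ⟨?_, fun x hx => ?_, fun x hx x' hx' => ?_⟩ _
  · rw [List.length_map, hL.1]
  · obtain ⟨y, hy, rfl⟩ := List.mem_map.1 hx
    exact cat_mem hc hT (hL.2.1 y hy).1 (hL.2.1 y hy).2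
  · obtain ⟨y, hy, rfl⟩ := List.mem_map.1 hx
    obtain ⟨y', hy', rfl⟩ := List.mem_map.1 hx'
    have h2 := hL.2.1 y hy
    have h3 := hL.2.1 y' hy'
    refine (dist_cat_cat_le h2.1.1 h3.1.1 h2.2.1 h3.2.1 ?_ ?_).trans_lt
      (max_lt (hL.2.2 y hy y' hy').1 (hL.2.2 y hy y' hy').2)
    · rw [eq_right h2.1 le_rfl, eq_left h2.2 le_rfl]
    · rw [eq_right h3.1 le_rfl, eq_left h3.2 le_rfl]

/-- `v · Y` is a cycle. -/
theorem cy_cat {q : M} {ℓ : ℝ} {j : ℕ} (hℓ : 0 ≤ ℓ) (hT : 0 ≤ T) {v : ℝ →ᵇ M} (hv : v ∈ P p q ℓ)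
    {Y : Ch k (ℝ →ᵇ M)} (hη : 0 < η) (hY : Cy (P q q' T) η j Y) :
    Cy (P p q' (ℓ + T)) η j (mp (fun w => cat ℓ v w) Y) := by
  refine ⟨?_, ?_⟩
  · refine map_mem _ (fun L hL => ?_) hY.1
    rw [mp_single]
    refine single_mem ⟨by rw [List.length_map, hL.1], fun x hx => ?_, fun x hx x' hx' => ?_⟩ _
    · obtain ⟨w, hw, rfl⟩ := List.mem_map.1 hx
      exact cat_mem hℓ hT hv (hL.2.1 w hw)
    · obtain ⟨w, hw, rfl⟩ := List.mem_map.1 hx
      obtain ⟨w', hw', rfl⟩ := List.mem_map.1 hx'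
      have h2 := hL.2.1 w hw
      have h3 := hL.2.1 w' hw'
      refine (dist_cat_cat_le hv.1 hv.1 h2.1 h3.1 ?_ ?_).trans_lt
        (max_lt (by rwa [dist_self]) (hL.2.2 w hw w' hw'))
      · rw [eq_right hv le_rfl, eq_left h2 le_rfl]
      · rw [eq_right hv le_rfl, eq_left h3 le_rfl]
  · rw [bd_mp]
    refine map_mem _ (fun L hL => ?_) hY.2
    rw [mp_single]
    refine single_mem ?_ _
    change (L.map _).length = 0
    rw [List.length_map]
    exact hL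

end Vale.Agent.P216.N929
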